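import Vale.Agent.P116.Pack.Wide.Spec
import Vale.Agent.P116.Pack.Clus
import Vale.Agent.P142.Area

/-!
P116 Pack, second part: inverse maps, connectedness of the parts, composites.
-/

noncomputable section

namespace Vale.Agent.P116.Pack.Wide

open Set Filter Metric Function
open scoped Topology

variable {U V E : Set ℂ} {f g : ℂ → ℂ} {b p : ℂ}

/-- Restriction to a smaller domain. -/
lemma IsExt.restrict (hf : IsExt V f) (hU : Dom U) (hUV : U ⊆ V) : IsExt U f :=
  ⟨hU, hf.diff.mono hUV, hf.injOn.mono hUV, hf.norm_inf⟩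

lemma mapsTo_invFunOn (hf : IsExt U f) : MapsTo (invFunOn f U) (f '' U) U :=
  fun _ hw => invFunOn_mem hw

lemma image_invFunOn (hf : IsExt U f) : invFunOn f U '' (f '' U) = U :=
  Subset.antisymm (mapsTo_invFunOn hf).image_subset fun z hz =>
    ⟨f z, mem_image_of_mem f hz, hf.injOn.leftInvOn_invFunOn hz⟩

/-- The inverse map is a map of the same kind. -/
lemma isExt_invFunOn (hf : IsExt U f) : IsExt (f '' U) (invFunOn f U) where
  dom := Wind.dom_image hf
  diff := by
    rintro _ ⟨x, hx, rfl⟩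
    have hs : HasStrictDerivAt f (deriv f x) x :=
      (hf.diff.analyticAt (hf.dom.isOpen.mem_nhds hx)).hasStrictDerivAt
    exact (hs.to_local_left_inverse
      (Vale.Agent.P142.Area.deriv_ne_zero_of_injOn hf.dom.isOpen hf.diff hf.injOn hx)
      (by filter_upwards [hf.dom.isOpen.mem_nhds hx] with y hy; exact hf.injOn.leftInvOn_invFunOn hy)
      ).hasDerivAt.differentiableAt.differentiableWithinAt
  injOn := by
    rintro _ ⟨x, hx, rfl⟩ _ ⟨y, hy, rfl⟩ h
    rw [hf.injOn.leftInvOn_invFunOn hx, hf.injOn.leftInvOn_invFunOn hy] at h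
    rw [h]
  norm_inf := by
    obtain ⟨R, -, hsub, hb⟩ := Wind.exists_bound hf
    rw [← cobounded_eq_cocompact, Metric.tendsto_nhds]
    intro ε hε
    have h1 : ∀ᶠ z in cocompact ℂ, ‖f z - z‖ < ε :=
      hf.norm_inf.norm.eventually (gt_mem_nhds (by simpa using hε))
    rw [← cobounded_eq_cocompact] at h1
    obtain ⟨T, -, hT⟩ := hasBasis_cobounded_norm.eventually_iff.1 h1
    refine hasBasis_cobounded_norm.eventually_iff.2
      ⟨max (R + 3) (max T R + 3), trivial, fun w hw => ?_⟩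
    have hw' : max (R + 3) (max T R + 3) ≤ ‖w‖ := hw
    obtain ⟨z, hz, rfl⟩ := hsub (show R + 2 < ‖w‖ by linarith [le_max_left (R + 3) (max T R + 3)])
    have hzT : T ≤ ‖z‖ := by
      by_contra hlt
      have := (hb z hz).trans
        (add_le_add (max_le_max (not_le.1 hlt).le (le_refl R)) (le_refl 2))
      linarith [le_max_right (R + 3) (max T R + 3)]
    rw [dist_zero_right, hf.injOn.leftInvOn_invFunOn hz, norm_sub_rev]
    exact hT hzT

/-- The relation between boundary points is symmetric. -/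
lemma mem_bclus_inv (hf : IsExt U f) {C : Set ℂ} (hb : b ∈ C) (hp : p ∉ U)
    (hcl : MapClusterPt b (𝓝[U] p) f) : p ∈ bclus (f '' U) (invFunOn f U) C := by
  refine ⟨b, hb, mapClusterPt_iff_frequently.2 fun s hs => ?_⟩
  rw [frequently_nhdsWithin_iff, frequently_iff]
  intro O hO
  obtain ⟨z, hz, hzU, hzs⟩ := ((mapClusterPt_iff_frequently.1 hcl O hO).and_eventually
    (eventually_mem_nhdsWithin.and (mem_nhdsWithin_of_mem_nhds hs))).exists
  exact ⟨f z, hz, by rwa [hf.injOn.leftInvOn_invFunOn hzU], mem_image_of_mem f hzU⟩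

/-- Two components of the complement of the image in the part of one component coincide. -/
lemma component_unique (hf : IsExt U f) (hE : E ∈ comps Uᶜ) {C C' : Set ℂ}
    (hC : C ∈ comps (f '' U)ᶜ) (hC' : C' ∈ comps (f '' U)ᶜ) (h : C ⊆ clus U f E)
    (h' : C' ⊆ clus U f E) : C = C' := by
  have hg := isExt_invFunOn hf
  obtain ⟨-, -, hcl⟩ := clusStmt _ _ hg
  have key : ∀ D ∈ comps (f '' U)ᶜ, D ⊆ clus U f E →
      E ⊆ clus (f '' U) (invFunOn f U) D := by
    intro D hD hsub
    obtain ⟨w, hw⟩ := comps_nonempty hD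
    obtain ⟨b, hb, p, hp, hpb⟩ := (hsub hw).2
    rw [comps_eq hD hw] at hb
    have h1 : p ∈ clus (f '' U) (invFunOn f U) D :=
      Wind.bclus_subset_clus hg (comps_subset hD) (mem_bclus_inv hf hb (comps_subset hE hp) hpb)
    have h2 := (hcl D hD).2.2.1 p h1
    rwa [image_invFunOn hf, comps_eq hE hp] at h2
  by_contra hne
  obtain ⟨p, hp⟩ := comps_nonempty hE
  exact Set.disjoint_left.1 ((hcl C hC).2.2.2 C' hC' (Ne.symm hne)) (key C hC h hp) (key C' hC' h' hp)

/-- The part of a component is a component. -/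
lemma clus_mem_comps (hf : IsExt U f) (hE : E ∈ comps Uᶜ) : clus U f E ∈ comps (f '' U)ᶜ := by
  obtain ⟨hne, -, hcc, -⟩ := (clusStmt U f hf).2.2 E hE
  obtain ⟨w, hw⟩ := hne
  have hC : connectedComponentIn (f '' U)ᶜ w ∈ comps (f '' U)ᶜ := mem_comps hw.1
  suffices h : clus U f E = connectedComponentIn (f '' U)ᶜ w from h.symm ▸ hC
  refine Subset.antisymm (fun v hv => ?_) (hcc w hw)
  rw [component_unique hf hE hC (mem_comps hv.1) (hcc w hw) (hcc v hv)]
  exact mem_connectedComponentIn hv.1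

theorem conn : ConnStmt := by
  intro U f hf
  obtain ⟨-, heq, hcl⟩ := clusStmt U f hf
  refine ⟨fun E hE => comps_preconnected (clus_mem_comps hf hE), ?_, fun g hg E hE => ?_⟩
  · refine Subset.antisymm ?_ (by rintro _ ⟨E, hE, rfl⟩; exact clus_mem_comps hf hE)
    rintro _ ⟨w, hw, rfl⟩
    obtain ⟨E, hE, hwE⟩ := mem_iUnion₂.1 (heq ▸ hw)
    exact ⟨E, hE, (comps_eq (clus_mem_comps hf hE) hwE).symm⟩
  · have hgf := hf.comp hg
    have hC := clus_mem_comps hf hE
    obtain ⟨b, p, hp, hb⟩ := Wind.clus_nonempty hgf hE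
    obtain ⟨R, -, -, hbd⟩ := Wind.exists_bound hf
    have hb' : MapClusterPt b (map f (𝓝[U] p)) g := by
      simpa [MapClusterPt, Filter.map_map] using hb
    have hev : ∀ᶠ y in map f (𝓝[U] p), y ∈ closedBall (0 : ℂ) (max (‖p‖ + 1) R + 2) ∩ (f '' U ∪ (f '' U)ᶜ) := by
      rw [eventually_map]
      filter_upwards [eventually_mem_nhdsWithin, nhdsWithin_le_nhds (ball_mem_nhds p one_pos)]
        with z hzU hz
      refine ⟨mem_closedBall_zero_iff.2 ((hbd z hzU).trans ?_), by simp⟩
      rw [mem_ball, dist_eq_norm] at hz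
      gcongr
      linarith [norm_le_norm_add_norm_sub p z, norm_sub_rev z p]
    obtain ⟨u, huf, hu⟩ : ∃ l : Ultrafilter ℂ, ↑l ≤ map f (𝓝[U] p) ∧ Tendsto g l (𝓝 b) :=
      mapClusterPt_iff_ultrafilter.1 hb'
    obtain ⟨v, -, hv⟩ := (isCompact_closedBall (0 : ℂ) (max (‖p‖ + 1) R + 2)).ultrafilter_le_nhds u
      (le_principal_iff.2 (mem_of_superset (huf hev) fun y hy => hy.1))
    have hcl1 : MapClusterPt v (𝓝[U] p) f := by
      rw [MapClusterPt, ClusterPt]
      exact NeBot.mono u.neBot (le_inf hv huf)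
    have hvU : v ∉ f '' U := Wind.bclus_notMem hf (comps_subset hE hp) hcl1
    have hcl2 : MapClusterPt b (𝓝[f '' U] v) g := by
      refine mapClusterPt_iff_ultrafilter.2 ⟨u, le_inf hv (le_trans huf ?_), hu⟩
      rw [le_principal_iff, mem_map]
      exact mem_of_superset self_mem_nhdsWithin fun z hz => mem_image_of_mem f hz
    have hvE : v ∈ clus U f E := Wind.bclus_subset_clus hf (comps_subset hE) ⟨p, hp, hcl1⟩
    have h1 : b ∈ clus U (g ∘ f) E :=
      Wind.bclus_subset_clus hgf (comps_subset hE) ⟨p, hp, hb⟩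
    have h2 : b ∈ clus (f '' U) g (clus U f E) :=
      Wind.bclus_subset_clus hg (comps_subset hC) ⟨v, hvE, hcl2⟩
    have e1 := clus_mem_comps hgf hE
    rw [image_comp] at e1
    exact (comps_eq e1 h1).symm.trans (comps_eq (clus_mem_comps hg hC) h2)

end Vale.Agent.P116.Pack.Wide
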