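import Vale.Agent.P116.Pack.Wide.Piece
import Mathlib.Topology.Baire.Lemmas
import Mathlib.Topology.Baire.LocallyCompactRegular

/-!
P116 Pack, second part: a countable closed set of bad components is allowed.
-/

noncomputable section

namespace Vale.Agent.P116.Pack.Wide

open Set Filter Metric Function
open scoped Topology

/-- All components null: one step gives a circle map. -/
lemma hasCircle_of_null (hS : StepBoundStmt) {V : Set ℂ} (hV : Dom V)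
    (hn : ∀ E ∈ comps Vᶜ, Null Vᶜ E) : HasCircle V := by
  obtain ⟨C, -, hC⟩ := hS
  obtain ⟨f, hf, -, hd⟩ := hC V hV (Set.finite_empty.subset fun E hE => hE.2 (hn E hE.1))
  refine ⟨f, hf, fun C' hC' => ?_⟩
  rw [(conn V f hf).2.1] at hC'
  obtain ⟨E, hE, rfl⟩ := hC'
  exact hd E hE (hn E hE)

/-- A nonempty countable compact Hausdorff space has an open singleton. -/
lemma exists_isolated {Y : Type*} [TopologicalSpace Y] [T2Space Y] [CompactSpace Y] [Countable Y]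
    [Nonempty Y] : ∃ y : Y, IsOpen ({y} : Set Y) := by
  obtain ⟨y, hy⟩ := nonempty_interior_of_iUnion_of_closed (f := fun y : Y => ({y} : Set Y))
    (fun y => isClosed_singleton) (iUnion_of_singleton Y)
  refine ⟨y, ?_⟩
  obtain ⟨z, hz⟩ := hy
  have he : interior ({y} : Set Y) = {y} := Subset.antisymm interior_subset
    (singleton_subset_iff.2 ((mem_singleton_iff.1 (interior_subset hz)) ▸ hz))
  exact he ▸ isOpen_interior

/-- A nonempty countable closed family of components has an isolated member. -/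
lemma exists_isolated_comp {K : Set ℂ} (hK : IsCompact K) {X : Set (Set ℂ)} (hXK : X ⊆ comps K)
    (hXc : X.Countable) (hXcl : IsClosed (⋃₀ X)) (hXne : X.Nonempty) :
    ∃ E ∈ X, ∃ L : Set ℂ, IsClosed L ∧ L ⊆ K ∧ Disjoint E L ∧
      ∀ E' ∈ X, E' ≠ E → E' ⊆ L := by
  have : CompactSpace ↥K := isCompact_iff_compactSpace.mp hK
  set π : ↥K → ConnectedComponents ↥K := ConnectedComponents.mk
  have hπc : Continuous π := ConnectedComponents.continuous_coe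
  have hsame : ∀ x y : ↥K, π x = π y ↔ (x : ℂ) ∈ connectedComponentIn K y := by
    intro x y
    rw [ConnectedComponents.coe_eq_coe', connectedComponentIn_eq_image y.2]
    exact ⟨fun h => ⟨x, h, rfl⟩, fun ⟨x', hx', he⟩ => Subtype.val_injective he ▸ hx'⟩
  set Y : Set (ConnectedComponents ↥K) := π '' (Subtype.val ⁻¹' ⋃₀ X) with hY
  have hYc : IsCompact Y := (hXcl.preimage continuous_subtype_val).isCompact.image hπc
  have hYcount : Y.Countable := by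
    classical
    have : ∀ E ∈ X, ∃ p : ↥K, (p : ℂ) ∈ E := fun E hE => by
      obtain ⟨p, hp⟩ := comps_nonempty (hXK hE)
      exact ⟨⟨p, comps_subset (hXK hE) hp⟩, hp⟩
    have hKne : Nonempty ↥K := by
      obtain ⟨E, hE⟩ := hXne
      exact ⟨(this E hE).choose⟩
    choose! p hp using this
    refine (hXc.image fun E => π (p E)).mono ?_
    rintro _ ⟨x, ⟨E, hE, hxE⟩, rfl⟩
    exact ⟨E, hE, (hsame _ _).2 (by rw [comps_eq (hXK hE) hxE]; exact hp E hE)⟩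
  have hYne : Y.Nonempty := by
    obtain ⟨E, hE⟩ := hXne
    obtain ⟨p, hp⟩ := comps_nonempty (hXK hE)
    exact ⟨_, ⟨⟨p, comps_subset (hXK hE) hp⟩, ⟨E, hE, hp⟩, rfl⟩⟩
  have : CompactSpace ↥Y := isCompact_iff_compactSpace.mp hYc
  have : Countable ↥Y := hYcount.to_subtype
  have : Nonempty ↥Y := hYne.to_subtype
  obtain ⟨⟨y, hy⟩, hopen⟩ := exists_isolated (Y := ↥Y)
  obtain ⟨W, hW, hWy⟩ := isOpen_induced_iff.1 hopen
  obtain ⟨⟨x, hxK⟩, ⟨E, hE, hxE⟩, hxy⟩ := hy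
  refine ⟨E, hE, Subtype.val '' (π ⁻¹' (Y ∩ Wᶜ)), ?_, ?_, ?_, ?_⟩
  · exact (((hYc.isClosed.inter hW.isClosed_compl).preimage hπc).isCompact.image
      continuous_subtype_val).isClosed
  · rintro _ ⟨z, -, rfl⟩
    exact z.2
  · rw [Set.disjoint_left]
    rintro _ hzE ⟨z, ⟨-, hzW⟩, rfl⟩
    refine hzW ?_
    have hπ : π z = y := hxy ▸ (hsame _ _).2 (by
      show (z : ℂ) ∈ connectedComponentIn K x
      rw [comps_eq (hXK hE) hxE]; exact hzE)
    have hmem : (⟨y, ⟨⟨x, hxK⟩, ⟨E, hE, hxE⟩, hxy⟩⟩ : ↥Y) ∈ (Subtype.val ⁻¹' W : Set ↥Y) := by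
      rw [hWy]; rfl
    rw [hπ]
    exact hmem
  · intro E' hE' hne z hz
    refine ⟨⟨z, comps_subset (hXK hE') hz⟩, ⟨⟨_, ⟨E', hE', hz⟩, rfl⟩, fun hzW => hne ?_⟩, rfl⟩
    have hmem : (⟨π ⟨z, comps_subset (hXK hE') hz⟩, ⟨_, ⟨E', hE', hz⟩, rfl⟩⟩ : ↥Y) ∈
        (Subtype.val ⁻¹' W : Set ↥Y) := hzW
    rw [hWy, mem_singleton_iff] at hmem
    have hmem := congrArg Subtype.val hmem
    simp only at hmem
    rw [← hxy, hsame] at hmem
    have hzE : z ∈ E := by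
      have : z ∈ connectedComponentIn K x := hmem
      rwa [comps_eq (hXK hE) hxE] at this
    exact (comps_eq (hXK hE') hz).symm.trans (comps_eq (hXK hE) hzE)

theorem closedBad (hP : PieceStmt) (hN : NullLocalStmt) (hS : StepBoundStmt) (hM : MainStmt) :
    ClosedBadStmt := by
  intro U hU B hBc hBK hBcl hnull
  obtain ⟨hPd, hPimg, hPsep⟩ := hP U hU
  -- null components have tame pieces
  have hnonB : ∀ E ∈ comps Uᶜ, E ∉ B → ∃ P, Piece Uᶜ P ∧ E ⊆ P ∧ Tame Uᶜ P := by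
    intro E hE hEB
    obtain ⟨P, hPp, hEP, hPB⟩ := hPsep E hE (⋃₀ B) hBcl
      (sUnion_subset fun E' hE' => comps_subset (hBK hE')) (Set.disjoint_left.2 fun p hp ⟨E', hE', hp'⟩ =>
        hEB (by rwa [(comps_eq hE hp).symm.trans (comps_eq (hBK hE') hp')]))
    refine ⟨P, hPp, hEP, fun Q P₀ h hQ hP₀ hQP hd hh => ?_⟩
    obtain ⟨hD, hcomps⟩ := hPimg P₀ Q h hP₀ hQ hd hh
    refine hasCircle_of_null hS hD ?_
    rw [compl_compl, hcomps]
    rintro _ ⟨E', hE', rfl⟩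
    refine hN.2 P₀ᶜ Q E' h hh hQ.2.1 (fun z hz => Set.disjoint_left.1 hd hz) hE'
      ((hN.1 Uᶜ Q E' hU.compact_compl hQ hE').2 ?_)
    rw [(hPd Q hQ).2.2] at hE'
    obtain ⟨p, hp⟩ := comps_nonempty hE'.1
    exact hnull E' hE'.1 fun hEB' =>
      Set.disjoint_left.1 hPB (hQP (hE'.2 hp)) ⟨E', hEB', hp⟩
  -- the members without a tame piece
  set X := {E ∈ B | ¬ ∃ P, Piece Uᶜ P ∧ E ⊆ P ∧ Tame Uᶜ P} with hX
  have htame : ∀ E ∈ comps Uᶜ, E ∉ X → ∃ P, Piece Uᶜ P ∧ E ⊆ P ∧ Tame Uᶜ P := by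
    intro E hE hEX
    by_cases hEB : E ∈ B
    · exact by_contra fun h => hEX ⟨hEB, h⟩
    · exact hnonB E hE hEB
  suffices hXe : X = ∅ by
    exact hM U ∅ hU (empty_subset _) subsingleton_empty fun E hE _ =>
      htame E hE (by simp [hXe])
  by_contra hXe
  have hXK : X ⊆ comps Uᶜ := fun E hE => hBK hE.1
  have hXcl : IsClosed (⋃₀ X) := by
    refine isClosed_of_closure_subset fun x hx => ?_
    have hxU : x ∈ Uᶜ := closure_minimal (sUnion_subset fun E hE => comps_subset (hXK hE))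
      hU.isOpen.isClosed_compl hx
    by_contra hxX
    obtain ⟨P, hPp, hEP, hPt⟩ := htame _ (mem_comps hxU)
      fun h => hxX ⟨_, h, mem_connectedComponentIn hxU⟩
    obtain ⟨y, hy, E', hE', hyE'⟩ := mem_closure_iff_nhds.1 hx (Uᶜ \ P)ᶜ
      (hPp.2.2.isClosed.isOpen_compl.mem_nhds fun h => h.2 (hEP (mem_connectedComponentIn hxU)))
    have hyP : y ∈ P := by_contra fun h => hy ⟨comps_subset (hXK hE') hyE', h⟩
    have hmem : E' ∈ comps P := by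
      rw [← comps_eq (hXK hE') hyE', ← hPp.component_eq hyP]
      exact mem_comps hyP
    rw [(hPd P hPp).2.2] at hmem
    exact hE'.2 ⟨P, hPp, hmem.2, hPt⟩
  obtain ⟨E, hEX, L, hL, hLK, hEL, hrest⟩ := exists_isolated_comp hU.compact_compl hXK
    (hBc.mono fun E hE => hE.1) hXcl (nonempty_iff_ne_empty.2 hXe)
  obtain ⟨P, hPp, hEP, hPL⟩ := hPsep E (hXK hEX) L hL hLK hEL
  refine hEX.2 ⟨P, hPp, hEP, fun Q P₀ h hQ hP₀ hQP hd hh => ?_⟩
  obtain ⟨hD, hcomps⟩ := hPimg P₀ Q h hP₀ hQ hd hh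
  have hQP₀ : Q ⊆ P₀ᶜ := fun z hz => Set.disjoint_left.1 hd hz
  classical
  refine hM (h '' Q)ᶜ (if E ⊆ Q then {h '' E} else ∅) hD ?_ ?_ ?_
  · rw [compl_compl, hcomps]
    split_ifs with hEQ
    · exact singleton_subset_iff.2 ⟨E, by rw [(hPd Q hQ).2.2]; exact ⟨hXK hEX, hEQ⟩, rfl⟩
    · exact empty_subset _
  · split_ifs
    · exact subsingleton_singleton
    · exact subsingleton_empty
  rw [compl_compl, hcomps]
  rintro _ ⟨E', hE', rfl⟩ hne
  rw [(hPd Q hQ).2.2] at hE'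
  have hE'X : E' ∉ X := by
    intro hX'
    by_cases he : E' = E
    · exact hne (by rw [if_pos (he ▸ hE'.2), he]; exact mem_singleton _)
    · obtain ⟨p, hp⟩ := comps_nonempty hE'.1
      exact Set.disjoint_left.1 hPL (hQP (hE'.2 hp)) (hrest E' hX' he hp)
  obtain ⟨P', hP', hE'P, hP't⟩ := htame E' hE'.1 hE'X
  have hinj : InjOn h Q := hh.injOn.mono hQP₀
  have hcont : ContinuousOn h Q := hh.diff.continuousOn.mono hQP₀
  refine ⟨h '' (P' ∩ Q), ⟨image_mono inter_subset_right,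
    (hP'.2.1.inter hQ.2.1).image_of_continuousOn (hcont.mono inter_subset_right), ?_⟩,
    image_mono (subset_inter hE'P hE'.2), ?_⟩
  · have : h '' Q \ h '' (P' ∩ Q) = h '' (Q ∩ (Uᶜ \ P')) := by
      ext w
      constructor
      · rintro ⟨⟨z, hz, rfl⟩, hn⟩
        exact ⟨z, ⟨hz, hQ.1 hz, fun hzP => hn ⟨z, ⟨hzP, hz⟩, rfl⟩⟩, rfl⟩
      · rintro ⟨z, ⟨hz, -, hzP⟩, rfl⟩
        exact ⟨mem_image_of_mem h hz, fun ⟨y, ⟨hy, hyQ⟩, e⟩ => hzP (hinj hyQ hz e ▸ hy)⟩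
    rw [this]
    exact (hQ.2.1.inter hP'.2.2).image_of_continuousOn (hcont.mono inter_subset_left)
  intro Q₁ P₁ h₁ hQ₁ hP₁ hQ₁R hd₁ hh₁
  have hpre : ∀ R : Set ℂ, Piece (h '' Q) R → Piece Uᶜ (Q ∩ h ⁻¹' R) := by
    intro R hR
    have hc : ∀ S : Set ℂ, IsCompact S → IsCompact (Q ∩ h ⁻¹' S) := fun S hS =>
      hQ.2.1.of_isClosed_subset (hcont.preimage_isClosed_of_isClosed hQ.2.1.isClosed hS.isClosed)
        inter_subset_left
    refine ⟨inter_subset_left.trans hQ.1, hc R hR.2.1, ?_⟩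
    have : Uᶜ \ (Q ∩ h ⁻¹' R) = (Uᶜ \ Q) ∪ (Q ∩ h ⁻¹' (h '' Q \ R)) := by
      ext z
      constructor
      · rintro ⟨hz, hn⟩
        by_cases hzQ : z ∈ Q
        · exact Or.inr ⟨hzQ, mem_image_of_mem h hzQ, fun hR' => hn ⟨hzQ, hR'⟩⟩
        · exact Or.inl ⟨hz, hzQ⟩
      · rintro (⟨hz, hn⟩ | ⟨hzQ, -, hn⟩)
        · exact ⟨hz, fun h' => hn h'.1⟩
        · exact ⟨hQ.1 hzQ, fun h' => hn h'.2⟩
    rw [this]
    exact hQ.2.2.union (hc _ hR.2.2)
  have hP₁' : Piece Uᶜ (Q ∩ h ⁻¹' P₁) := hpre P₁ hP₁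
  set W := (P₀ ∪ Q ∩ h ⁻¹' P₁)ᶜ with hW
  have hhW : IsExt W h :=
    IsExt.restrict hh (hPd _ (hP₀.union hP₁')).1 (compl_subset_compl.2 subset_union_left)
  have hmaps : h '' W ⊆ P₁ᶜ := by
    rintro _ ⟨z, hz, rfl⟩ hzP
    obtain ⟨y, hy, hyz⟩ := hP₁.1 hzP
    have hzy : y = z := hh.injOn (hQP₀ hy) (fun h' => hz (Or.inl h')) hyz
    exact hz (Or.inr ⟨hzy ▸ hy, hzP⟩)
  have hH : IsExt W (h₁ ∘ h) := hhW.comp (IsExt.restrict hh₁ (Wind.dom_image hhW) hmaps)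
  have hres := hP't (Q ∩ h ⁻¹' Q₁) (P₀ ∪ Q ∩ h ⁻¹' P₁) (h₁ ∘ h) (hpre Q₁ hQ₁)
    (hP₀.union hP₁') ?_ ?_ hH
  · have he : (h₁ ∘ h) '' (Q ∩ h ⁻¹' Q₁) = h₁ '' Q₁ := by
      rw [image_comp, image_inter_preimage, inter_eq_self_of_subset_right hQ₁.1]
    rwa [he] at hres
  · rintro z ⟨hzQ, hz⟩
    obtain ⟨y, ⟨hy, hyQ⟩, hyz⟩ := hQ₁R hz
    exact hinj hyQ hzQ hyz ▸ hy
  · rw [Set.disjoint_left]
    rintro z ⟨hzQ, hz⟩ (hz' | ⟨-, hz'⟩)
    · exact hQP₀ hzQ hz'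
    · exact Set.disjoint_left.1 hd₁ hz hz'

end Vale.Agent.P116.Pack.Wide
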