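import Vale.Agent.P116.Pack.Wide.Spec
import Vale.Agent.P116.Pack.Step

/-!
P116 Pack/Wide: one step for null components, with the bound of `LineStmt` passed to the limit.
-/

noncomputable section

namespace Vale.Agent.P116.Pack.Wide

open Set Filter Metric Function
open scoped Topology

/-- The radius and the centre of a disc inside a disc. -/
lemma dist_add_le_of_subset {c c' : ℂ} {r r' : ℝ} (hr : 0 ≤ r)
    (h : closedBall c r ⊆ closedBall c' r') : dist c c' + r ≤ r' := by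
  rcases eq_or_ne c c' with rfl | hne
  · have hx : c + (r : ℂ) ∈ closedBall c r := by
      rw [mem_closedBall, dist_eq_norm, add_sub_cancel_left, Complex.norm_of_nonneg hr]
    have := h hx
    rw [mem_closedBall, dist_eq_norm, add_sub_cancel_left, Complex.norm_of_nonneg hr] at this
    simpa using this
  have hd : 0 < dist c c' := dist_pos.2 hne
  set t : ℝ := r / dist c c' with ht
  have ht0 : 0 ≤ t := div_nonneg hr hd.le
  have hx : c + (t : ℂ) * (c - c') ∈ closedBall c r := by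
    rw [mem_closedBall, dist_eq_norm, add_sub_cancel_left, norm_mul, Complex.norm_of_nonneg ht0,
      ← dist_eq_norm, ht, div_mul_cancel₀ _ hd.ne']
  have := h hx
  rw [mem_closedBall, dist_eq_norm, show c + (t : ℂ) * (c - c') - c' =
    ((1 + t : ℝ) : ℂ) * (c - c') by push_cast; ring, norm_mul,
    Complex.norm_of_nonneg (by linarith), ← dist_eq_norm, add_mul, one_mul, ht,
    div_mul_cancel₀ _ hd.ne'] at this
  exact this

/-- A cluster part lies in a disc when its boundary values do. -/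
lemma clus_subset_closedBall (hC : ClusStmt) {U E : Set ℂ} {f : ℂ → ℂ} (hf : IsExt U f)
    (hE : E ∈ comps Uᶜ) {c : ℂ} {r : ℝ} (hr : 0 ≤ r) (hb : ∀ b ∈ bclus U f E, dist b c ≤ r) :
    clus U f E ⊆ closedBall c r := by
  obtain ⟨hne, hcpt, hcc, -⟩ := (hC U f hf).2.2 E hE
  intro w hw
  obtain ⟨m, hm, hmax⟩ := hcpt.exists_isMaxOn hne
    (continuous_id.dist (continuous_const (y := c))).continuousOn
  refine mem_closedBall.2 (le_trans (hmax hw) ?_)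
  show dist m c ≤ r
  by_cases hmc : m = c
  · simp [hmc, hr]
  refine hb m (mem_bclus_of_mem_closure hC hf hE hm ?_)
  rw [Metric.mem_closure_iff]
  intro ε hε
  by_contra hcon
  push Not at hcon
  set t : ℝ := ε / 2 / dist m c with ht
  have hd : 0 < dist m c := dist_pos.2 hmc
  have htd : t * dist m c = ε / 2 := by rw [ht]; field_simp
  set y := m + (t : ℂ) * (m - c) with hy
  have ht0 : 0 < t := by positivity
  have hym : dist y m = ε / 2 := by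
    rw [hy, dist_eq_norm, add_sub_cancel_left, norm_mul, Complex.norm_of_nonneg ht0.le,
      ← dist_eq_norm, htd]
  have hball : ball m ε ⊆ connectedComponentIn (f '' U)ᶜ m :=
    (convex_ball m ε).isPreconnected.subset_connectedComponentIn (mem_ball_self hε)
      fun x hx hxU => absurd (hcon x hxU) (by rw [mem_ball, dist_comm] at hx; linarith)
  have hyCl : y ∈ clus U f E := hcc m hm (hball (by rw [mem_ball, hym]; linarith))
  have h1 : dist y c ≤ dist m c := hmax hyCl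
  rw [hy, dist_eq_norm, dist_eq_norm, show m + (t : ℂ) * (m - c) - c =
    ((1 + t : ℝ) : ℂ) * (m - c) by push_cast; ring, norm_mul,
    Complex.norm_of_nonneg (by linarith), ← dist_eq_norm] at h1
  nlinarith

/-- Limits of discs of stage maps lie in the limit part. -/
lemma exists_limit_disc (hL : LimitStmt) {U E : Set ℂ} {V : ℕ → Set ℂ} {F : ℕ → ℂ → ℂ} {f : ℂ → ℂ}
    (hU : Dom U) (hV : ∀ k, U ⊆ V k) (hF : ∀ k, IsExt (V k) (F k))
    (hlim : TendstoLocallyUniformlyOn F f atTop U) (hE : E ∈ comps Uᶜ) (k₀ : ℕ) (c : ℕ → ℂ)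
    (r : ℕ → ℝ) {M : ℝ}
    (h : ∀ i, E ∈ comps (V (i + k₀))ᶜ ∧ 0 ≤ r i ∧
      clus (V (i + k₀)) (F (i + k₀)) E = closedBall (c i) (r i) ∧
      clus (V (i + k₀)) (F (i + k₀)) E ⊆ closedBall 0 M) :
    ∃ (c₀ : ℂ) (r₀ : ℝ) (σ : ℕ → ℕ), StrictMono σ ∧ 0 ≤ r₀ ∧
      Tendsto (fun i => c (σ i)) atTop (𝓝 c₀) ∧ Tendsto (fun i => r (σ i)) atTop (𝓝 r₀) ∧
      closedBall c₀ r₀ ⊆ clus U f E := by
  have hin : ∀ i, ‖c i‖ ≤ M ∧ r i ≤ M := fun i => by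
    have h0 := dist_add_le_of_subset (h i).2.1 ((h i).2.2.1 ▸ (h i).2.2.2)
    rw [dist_zero_right] at h0
    exact ⟨by linarith [(h i).2.1], by linarith [norm_nonneg (c i)]⟩
  obtain ⟨⟨c₀, r₀⟩, hcr₀, σ, hσ, hσl⟩ :=
    ((isCompact_closedBall (0 : ℂ) M).prod (isCompact_Icc (a := (0 : ℝ)) (b := M))).tendsto_subseq
      (x := fun i => (c i, r i)) fun i =>
        ⟨mem_closedBall_zero_iff.2 (hin i).1, (h i).2.1, (hin i).2⟩
  have hc₀ : Tendsto (fun i => c (σ i)) atTop (𝓝 c₀) := (continuous_fst.tendsto _).comp hσl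
  have hr₀' : Tendsto (fun i => r (σ i)) atTop (𝓝 r₀) := (continuous_snd.tendsto _).comp hσl
  have hr₀ : 0 ≤ r₀ := hcr₀.2.1
  refine ⟨c₀, r₀, σ, hσ, hr₀, hc₀, hr₀', fun w hw => ?_⟩
  obtain ⟨q₀, hq₀⟩ := comps_nonempty hE
  obtain ⟨-, hchar⟩ := hL U V F f hU hV hF hlim
  refine (hchar E hE w).2 ⟨fun i => σ i + k₀, fun _ => q₀,
    fun i => c (σ i) + ((r (σ i) / r₀ : ℝ) : ℂ) * (w - c₀),
    fun a b hab => Nat.add_lt_add_right (hσ hab) _, fun i => ?_,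
    ⟨q₀, hq₀, tendsto_const_nhds⟩, ?_⟩
  · rw [img_of_mem_comps (h _).1 hq₀, (h _).2.2.1, mem_closedBall, dist_eq_norm,
      add_sub_cancel_left, norm_mul, Complex.norm_of_nonneg (div_nonneg (h _).2.1 hr₀),
      ← dist_eq_norm]
    rcases eq_or_lt_of_le hr₀ with h0 | h0
    · simp [← h0, (h _).2.1]
    · rw [div_mul_eq_mul_div, div_le_iff₀ h0]
      exact mul_le_mul_of_nonneg_left hw (h _).2.1
  · have := hc₀.add ((((hr₀'.div_const r₀)).ofReal).mul_const (w - c₀))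
    convert this using 2
    rcases eq_or_lt_of_le hr₀ with h0 | h0
    · have : w = c₀ := dist_le_zero.1 (h0 ▸ hw)
      simp [this]
    · simp [h0.ne']

theorem stepBound (hA : AreaBoundStmt) (hC : ClusStmt) (hL : LimitStmt) (hN : NormalStmt)
    (hK : FiniteKoebeStmt) (hLine : LineStmt) (hCount : NullCountStmt) : StepBoundStmt := by
  obtain ⟨C₀, hC0, hline⟩ := hLine
  refine ⟨C₀, hC0, fun U hU hbad => ?_⟩
  classical
  obtain ⟨g, hg⟩ := Set.countable_iff_exists_injOn.1 (hCount Uᶜ hU.compact_compl hbad)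
  set S := {E ∈ comps Uᶜ | E.Nontrivial} with hS
  let Fs : ℕ → Set (Set ℂ) := fun n => {E | E ∈ S ∧ g E < n}
  have hFfin : ∀ n, (Fs n).Finite := fun n =>
    Set.Finite.of_finite_image
      ((finite_Iio n).subset (by rintro _ ⟨E, hE, rfl⟩; exact hE.2))
      (hg.mono fun E hE => hE.1)
  have hFK : ∀ n, Fs n ⊆ comps Uᶜ := fun n E hE => hE.1.1
  let V₀ : ℕ → Set ℂ := fun n => (⋃₀ Fs n)ᶜ
  have hV₀ : ∀ n, Dom (V₀ n) ∧ U ⊆ V₀ n ∧ comps (V₀ n)ᶜ = Fs n :=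
    fun n => hU.of_finite_union (hFfin n) (hFK n)
  have hfn : ∀ n, ∃ f, IsExt (V₀ n) f ∧ ∀ E ∈ comps (V₀ n)ᶜ, ∃ (c : ℂ) (r : ℝ), 0 ≤ r ∧
      clus (V₀ n) f E = closedBall c r := fun n =>
    hK (V₀ n) (hV₀ n).1 (by rw [(hV₀ n).2.2]; exact hFfin n)
      (by rw [(hV₀ n).2.2]; exact fun E hE => hE.1.2)
  choose fn hfn hdisc using hfn
  obtain ⟨s, f, hs, hlim⟩ := hN U V₀ fn hU (fun n => (hV₀ n).2.1) hfn
  set V : ℕ → Set ℂ := fun j => V₀ (s j) with hVdef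
  set Fn : ℕ → ℂ → ℂ := fun j => fn (s j) with hFn
  have hV : ∀ j, U ⊆ V j := fun j => (hV₀ (s j)).2.1
  have hFe : ∀ j, IsExt (V j) (Fn j) := fun j => hfn (s j)
  obtain ⟨hf, hchar⟩ := hL U V Fn f hU hV hFe hlim
  obtain ⟨C, hC1, hCb⟩ := id hA
  obtain ⟨R₀, hR1, hR₀⟩ := hU.exists_radius
  have hsubR : ∀ {R : ℝ}, Uᶜ ⊆ closedBall 0 R → ∀ j, (V j)ᶜ ⊆ closedBall 0 R := fun h j =>
    (compl_subset_compl.2 (hV j)).trans h
  have hball : ∀ j, (Fn j '' V j)ᶜ ⊆ closedBall 0 (C * R₀) := fun j =>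
    (hCb _ _ R₀ (by linarith) (hFe j) (hsubR hR₀ j)).1
  have himgz : ∀ z ∈ U, ∀ j, Fn j z ∈ img (V j) (Fn j) z := fun z hz j => by
    simp [img_of_mem (hV j hz)]
  have hpt : ∀ z ∈ U, Tendsto (fun j => Fn j z) atTop (𝓝 (f z)) := fun z hz =>
    hlim.tendsto_at hz
  have hfs : ∀ {φ : ℂ → ℝ} {ε : ℝ} {E : Set ℂ},
      (∀ F : Finset (Set ℂ), (∀ E' ∈ F, E' ∈ comps Uᶜ ∧ E' ≠ E) →
        ∑ E' ∈ F, osc φ E' ^ 2 ≤ ε) →
      ∀ j, ∀ T ⊆ comps (V j)ᶜ, (∀ E' ∈ T, E' ≠ E) → ∑ᶠ E' ∈ T, osc φ E' ^ 2 ≤ ε := by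
    intro φ ε E hφF j T hTn hne
    have hTF : T.Finite := (hFfin _).subset ((hV₀ _).2.2 ▸ hTn)
    rw [finsum_mem_eq_finite_toFinset_sum _ hTF]
    refine hφF _ fun E' hE' => ?_
    rw [Finite.mem_toFinset] at hE'
    exact ⟨hFK _ ((hV₀ _).2.2 ▸ hTn hE'), hne E' hE'⟩
  -- point components
  have key0 : ∀ {R : ℝ} {φ : ℂ → ℝ} {X E : Set ℂ} {ε : ℝ}, 1 ≤ R → Uᶜ ⊆ closedBall 0 R →
      ContDiff ℝ 1 φ → (∀ z, R ≤ ‖z‖ → φ z = 1) → IsPreconnected X → (∀ z ∈ X, φ z = 0) →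
      0 ≤ ε → energy φ ≤ ε → E ∈ comps Uᶜ → ¬ E.Nontrivial →
      (∀ F : Finset (Set ℂ), (∀ E' ∈ F, E' ∈ comps Uᶜ ∧ E' ≠ E) →
        ∑ E' ∈ F, osc φ E' ^ 2 ≤ ε) →
      ∀ q ∈ E, X ∈ 𝓝 q → ∀ c ∈ clus U f E, ∀ z ∈ X ∩ U,
        dist (f z) c ≤ Real.sqrt (C₀ * R ^ 2 * ε) := by
    intro R φ X E ε hR hsub hφ1 hφR hX hX0 hε hφe hE hnt hφF q hq hXq c hc z hz
    obtain ⟨σ, p, v, hσ, hv, ⟨q', hq', hp⟩, hvc⟩ := (hchar E hE c).1 hc
    obtain rfl : q' = q := (not_nontrivial_iff.1 hnt) hq' hq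
    refine le_of_tendsto (((hpt z hz.2).comp hσ.tendsto_atTop).dist hvc) ?_
    filter_upwards [hp.eventually_mem hXq] with i hi
    refine Real.le_sqrt_of_sq_le ?_
    exact (hline _ _ R φ X hR (hFe _) (by rw [(hV₀ _).2.2]; exact hFfin _) (hsubR hsub _)
      (hdisc _) hφ1 hφR hX hX0).1 ε hε hφe (hfs hφF _ _ Subset.rfl fun E' hE' h => hnt
        (h ▸ ((hV₀ _).2.2 ▸ hE' : E' ∈ Fs _).1.2)) z hz.1 (p i) hi _ (himgz z hz.2 _) _ (hv i)
  -- continua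
  have key1 : ∀ {E : Set ℂ}, E ∈ comps Uᶜ → E.Nontrivial →
      ∃ (c₀ : ℂ) (r₀ : ℝ), 0 ≤ r₀ ∧ closedBall c₀ r₀ ⊆ clus U f E ∧
        ∀ {R : ℝ} {φ : ℂ → ℝ} {X : Set ℂ} {ε : ℝ}, 1 ≤ R → Uᶜ ⊆ closedBall 0 R →
          ContDiff ℝ 1 φ → (∀ z, R ≤ ‖z‖ → φ z = 1) → IsPreconnected X → (∀ z ∈ X, φ z = 0) →
          0 ≤ ε → energy φ ≤ ε → (X ∩ E).Nonempty →
          (∀ F : Finset (Set ℂ), (∀ E' ∈ F, E' ∈ comps Uᶜ ∧ E' ≠ E) →
            ∑ E' ∈ F, osc φ E' ^ 2 ≤ ε) →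
          ∀ z ∈ X ∩ U, dist (f z) c₀ ≤ r₀ + Real.sqrt (C₀ * R ^ 2 * ε) := by
    intro E hE hnt
    obtain ⟨j₀, hj₀⟩ := (hs.tendsto_atTop.eventually_gt_atTop (g E)).exists_forall_of_atTop
    have hEj : ∀ j, j₀ ≤ j → E ∈ comps (V j)ᶜ := fun j hj => by
      rw [(hV₀ _).2.2]; exact ⟨⟨hE, hnt⟩, hj₀ j hj⟩
    choose c r hr hcr using fun i : ℕ => hdisc (s (i + j₀)) E (hEj _ (Nat.le_add_left j₀ i))
    obtain ⟨c₀, r₀, σ, hσ, hr₀, hc, hrl, hsub₀⟩ := exists_limit_disc hL hU hV hFe hlim hE j₀ c r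
      (M := C * R₀) fun i => ⟨hEj _ (Nat.le_add_left _ _), hr i, hcr i, fun v hv => hball _ hv.1⟩
    refine ⟨c₀, r₀, hr₀, hsub₀, fun {R φ X ε} hR hsub hφ1 hφR hX hX0 hε hφe hXE hφF z hz => ?_⟩
    refine le_of_tendsto_of_tendsto
      ((((hpt z hz.2).comp ((tendsto_add_atTop_nat j₀).comp hσ.tendsto_atTop))).dist hc)
      (hrl.add_const _) (Eventually.of_forall fun i => ?_)
    exact (hline _ _ R φ X hR (hFe _) (by rw [(hV₀ _).2.2]; exact hFfin _) (hsubR hsub _)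
      (hdisc _) hφ1 hφR hX hX0).2 E (hEj _ (Nat.le_add_left _ _)) hXE _ _ (hr _) (hcr _) ε hε hφe
        (hfs hφF _ _ sdiff_subset fun E' hE' => hE'.2) z hz.1 _ (himgz z hz.2 _)
  refine ⟨f, hf, ?_, ?_⟩
  · intro R φ X hR hsub hφ1 hφR hXo hX hX0 ε hε hφe E hE hXE hφF c r hr hcl z hz
    by_cases hnt : E.Nontrivial
    · obtain ⟨c₀, r₀, hr₀, hsub₀, hb⟩ := key1 hE hnt
      have h1 := dist_add_le_of_subset hr₀ (hcl ▸ hsub₀)
      have h2 := hb hR hsub hφ1 hφR hX hX0 hε hφe hXE hφF z hz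
      linarith [dist_triangle (f z) c₀ c]
    · obtain ⟨q, hqX, hqE⟩ := hXE
      have := key0 hR hsub hφ1 hφR hX hX0 hε hφe hE hnt hφF q hqE (hXo.mem_nhds hqX) c
        (hcl ▸ mem_closedBall_self hr) z hz
      linarith
  · intro E hE hnull
    have htest : ∀ q ∈ E, ∀ δ : ℝ, 0 < δ → ∃ (φ : ℂ → ℝ) (ρ ε : ℝ), 0 < ρ ∧ 0 ≤ ε ∧
        Real.sqrt (C₀ * (R₀ + 1) ^ 2 * ε) = δ ∧ ContDiff ℝ 1 φ ∧
        (∀ z, R₀ + 1 ≤ ‖z‖ → φ z = 1) ∧ (∀ z ∈ ball q ρ, φ z = 0) ∧ energy φ ≤ ε ∧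
        ∀ F : Finset (Set ℂ), (∀ E' ∈ F, E' ∈ comps Uᶜ ∧ E' ≠ E) →
          ∑ E' ∈ F, osc φ E' ^ 2 ≤ ε := by
      intro q hq δ hδ
      set ε := δ ^ 2 / (C₀ * (R₀ + 1) ^ 2) with hεd
      have hε : 0 < ε := by positivity
      obtain ⟨φ, h1, h2, h3, h4, h5⟩ := hnull q hq 1 ε one_pos hε
      obtain ⟨ρ, hρ, hρφ⟩ := Metric.eventually_nhds_iff_ball.1 h2
      refine ⟨φ, ρ, ε, hρ, hε.le, ?_, h1, fun z hz => h3 z ?_, hρφ, h4, h5⟩
      · rw [hεd, show C₀ * (R₀ + 1) ^ 2 * (δ ^ 2 / (C₀ * (R₀ + 1) ^ 2)) = δ ^ 2 by field_simp,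
          Real.sqrt_sq hδ.le]
      · have hqR : ‖q‖ ≤ R₀ := mem_closedBall_zero_iff.1 (hR₀ (comps_subset hE hq))
        rw [dist_eq_norm]
        linarith [norm_sub_norm_le z q]
    have hsub' : Uᶜ ⊆ closedBall 0 (R₀ + 1) :=
      hR₀.trans (closedBall_subset_closedBall (by linarith))
    obtain ⟨hne, -, -, -⟩ := (hC U f hf).2.2 E hE
    by_cases hnt : E.Nontrivial
    · obtain ⟨c₀, r₀, hr₀, hsub₀, hb⟩ := key1 hE hnt
      refine ⟨c₀, r₀, hr₀, Subset.antisymm (clus_subset_closedBall hC hf hE hr₀ fun b hbb => ?_)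
        hsub₀⟩
      obtain ⟨q, hq, hqn⟩ := exists_near_bclus hbb
      refine le_of_forall_pos_le_add fun δ hδ => ?_
      obtain ⟨φ, ρ, ε, hρ, hε, hδε, h1, h3, h0, h4, h5⟩ := htest q hq (δ / 2) (by linarith)
      obtain ⟨z, hzU, hzq, hzb⟩ := hqn (min ρ (δ / 2)) (lt_min hρ (by linarith))
      have := hb (R := R₀ + 1) (by linarith) hsub' h1 h3 (convex_ball q ρ).isPreconnected h0 hε h4
        ⟨q, mem_ball_self hρ, hq⟩ h5 z ⟨mem_ball.2 (hzq.trans_le (min_le_left _ _)), hzU⟩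
      rw [hδε] at this
      linarith [dist_triangle b (f z) c₀, dist_comm b (f z), min_le_right ρ (δ / 2)]
    · obtain ⟨b, hbb⟩ := bclus_nonempty_of_clus hne
      obtain ⟨q, hq, hqn⟩ := exists_near_bclus hbb
      obtain ⟨c, hc⟩ := hne
      refine ⟨c, 0, le_rfl, ?_⟩
      rw [closedBall_zero]
      refine Subset.antisymm (fun w hw => ?_) (singleton_subset_iff.2 hc)
      refine eq_of_forall_dist_le fun δ hδ => ?_
      obtain ⟨φ, ρ, ε, hρ, hε, hδε, h1, h3, h0, h4, h5⟩ := htest q hq (δ / 2) (by linarith)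
      obtain ⟨z, hzU, hzq, -⟩ := hqn ρ hρ
      have key := fun w' hw' => key0 (R := R₀ + 1) (by linarith) hsub' h1 h3
        (convex_ball q ρ).isPreconnected h0 hε h4 hE hnt h5 q hq (ball_mem_nhds q hρ) w' hw' z
        ⟨mem_ball.2 hzq, hzU⟩
      have k1 := key w hw
      have k2 := key c hc
      rw [hδε] at k1 k2
      linarith [dist_triangle_left w c (f z)]

end Vale.Agent.P116.Pack.Wide
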