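import Vale.Agent.P116.Pack.Wide.Stages
import Vale.Agent.P116.Pack.Wide.Step

/-!
P116 Pack/Wide: `MainStmt`. The stage maps are one step after the composed maps of the first pieces;
test functions chosen in the coordinates of a fixed stage bound all later ones.
-/

noncomputable section

namespace Vale.Agent.P116.Pack.Wide

open Set Filter Metric Function
open scoped Topology

/-- Exhaustion of the components outside the exceptional ones by tame pieces. -/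
lemma exists_tame_exhaustion (hP : PieceStmt) {U : Set ℂ} {T : Set (Set ℂ)} (hU : Dom U)
    (hTK : T ⊆ comps Uᶜ) (hTs : T.Subsingleton)
    (hT : ∀ E ∈ comps Uᶜ, E ∉ T → ∃ P, Piece Uᶜ P ∧ E ⊆ P ∧ Tame Uᶜ P) :
    ∃ S : ℕ → Set ℂ, S 0 = ∅ ∧ (∀ k, Piece Uᶜ (S k)) ∧ Monotone S ∧
      (∀ k, Disjoint (S k) (⋃₀ T)) ∧ (∀ x ∈ Uᶜ, x ∉ ⋃₀ T → ∃ k, x ∈ S k) ∧
      ∀ (k : ℕ) (G : ℂ → ℂ), IsExt (S k)ᶜ G → HasCircle (G '' (S (k + 1) \ S k))ᶜ := by
  classical
  set τ := ⋃₀ T with hτ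
  have hτc : IsClosed τ :=
    (hTs.finite.isCompact_sUnion fun E hE => comps_compact hU.compact_compl (hTK hE)).isClosed
  have hτK : τ ⊆ Uᶜ := sUnion_subset fun E hE => comps_subset (hTK hE)
  set PS := {P | Piece Uᶜ P ∧ Disjoint P τ ∧ Tame Uᶜ P} with hPS
  have hcov : ∀ x ∈ Uᶜ, x ∉ τ → ∃ P ∈ PS, x ∈ P := by
    intro x hx hxτ
    have hE : connectedComponentIn Uᶜ x ∈ comps Uᶜ := mem_comps hx
    obtain ⟨P₁, hP₁, hEP₁, ht⟩ := hT _ hE fun h => hxτ ⟨_, h, mem_connectedComponentIn hx⟩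
    obtain ⟨P₂, hP₂, hEP₂, hd⟩ := (hP U hU).2.2 _ hE τ hτc hτK (Set.disjoint_left.2
      fun p hp ⟨E', hE', hp'⟩ => hxτ ⟨E', hE', by
        rw [← (comps_eq hE hp).symm.trans (comps_eq (hTK hE') hp')]
        exact mem_connectedComponentIn hx⟩)
    exact ⟨P₁ \ (P₁ \ P₂), ⟨hP₁.diff (hP₁.diff hP₂),
      hd.mono_left fun z hz => by_contra fun h => hz.2 ⟨hz.1, h⟩,
      fun Q P₀ h hQ hP₀ hQP => ht Q P₀ h hQ hP₀ (hQP.trans sdiff_subset)⟩,
      hEP₁ (mem_connectedComponentIn hx),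
      fun h => h.2 (hEP₂ (mem_connectedComponentIn hx))⟩
  obtain ⟨QS, hQS, hQSc, hQSu⟩ := TopologicalSpace.isOpen_biUnion_countable PS
    (fun P => (Uᶜ \ P)ᶜ) fun P hP => hP.1.2.2.isClosed.isOpen_compl
  have h0 : (∅ : Set ℂ) ∈ PS := by
    refine ⟨Piece.empty hU.compact_compl, empty_disjoint _, fun Q P₀ h hQ hP₀ hQP hd hh => ?_⟩
    rw [subset_empty_iff.1 hQP, image_empty, compl_empty]
    exact ⟨id, isExt_id, fun E hE => by simp [comps] at hE⟩
  obtain ⟨P₀, hP₀⟩ := (hQSc.insert ∅).exists_eq_range (insert_nonempty _ _)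
  have hmem : ∀ n, P₀ n ∈ PS := fun n => insert_subset h0 hQS (hP₀ ▸ mem_range_self n)
  let S : ℕ → Set ℂ := fun k => Nat.rec ∅ (fun i A => A ∪ P₀ i) k
  have hS : ∀ k, Piece Uᶜ (S k) ∧ Disjoint (S k) τ := fun k => by
    induction k with
    | zero => exact ⟨Piece.empty hU.compact_compl, empty_disjoint _⟩
    | succ k ih => exact ⟨ih.1.union (hmem k).1, ih.2.union_left (hmem k).2.1⟩
  refine ⟨S, rfl, fun k => (hS k).1, monotone_nat_of_le_succ fun k => subset_union_left,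
    fun k => (hS k).2, fun x hx hxτ => ?_, fun k G hG => ?_⟩
  · obtain ⟨P, hP, hxP⟩ := hcov x hx hxτ
    have : x ∈ ⋃ P ∈ PS, (Uᶜ \ P)ᶜ := mem_biUnion hP fun h => h.2 hxP
    rw [← hQSu] at this
    obtain ⟨Q, hQ, hxQ⟩ := mem_iUnion₂.1 this
    obtain ⟨n, rfl⟩ : Q ∈ range P₀ := hP₀ ▸ mem_insert_of_mem _ hQ
    exact ⟨n + 1, Or.inr (by_contra fun h => hxQ ⟨hx, h⟩)⟩
  · exact (hmem k).2.2 _ _ G ((hS (k + 1)).1.diff (hS k).1) (hS k).1
      (fun x hx => (show x ∈ S k ∪ P₀ k from hx.1).resolve_left hx.2) disjoint_sdiff_left hG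

/-- The data of one stage and one component of it. -/
lemma stage_bound (hC : ClusStmt) {C₀ : ℝ} {U : Set ℂ} {T : Set (Set ℂ)} {R : ℝ} {C : ℝ}
    {Si Sk : Set ℂ} {Gi Gk Sf H : ℂ → ℂ} (hU : Dom U) (hR1 : 1 ≤ R)
    (hTs : T.Subsingleton) (hTK : T ⊆ comps Uᶜ) (hSk : Piece Uᶜ Sk)
    (hik : Si ⊆ Sk) (hdis : Disjoint Sk (⋃₀ T))
    (hUk : Dom (Sk ∪ ⋃₀ T)ᶜ) (hGi : IsExt Siᶜ Gi) (hGk : IsExt Skᶜ Gk)
    (hH : IsExt (Gi '' (Sk \ Si))ᶜ H) (heq : EqOn Gk (H ∘ Gi) Skᶜ)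
    (hpc : Piece (Gk '' Skᶜ)ᶜ (H '' (Gi '' Siᶜ)ᶜ))
    (hCb : ∀ (U' : Set ℂ) (f : ℂ → ℂ) (R : ℝ), 0 < R → IsExt U' f → U'ᶜ ⊆ closedBall 0 R →
      (f '' U')ᶜ ⊆ closedBall 0 (C * R) ∧ ∀ z ∈ U', ‖f z‖ ≤ C * (‖z‖ + R))
    (hC1 : 1 ≤ C) (hKR : Uᶜ ⊆ closedBall 0 R)
    (hSf : LineBound C₀ (Gk '' (Sk ∪ ⋃₀ T)ᶜ) Sf)
    {q' : ℂ} (hq' : q' ∈ (Gi '' Siᶜ)ᶜ) {E : Set ℂ} (hE : E ∈ comps Uᶜ) (hES : E ⊆ Si)
    (hq'b : ∃ q ∈ E, ∀ ε : ℝ, 0 < ε → ∃ z ∈ U, dist z q < ε ∧ dist (Gi z) q' < ε)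
    {φ : ℂ → ℝ} {δ₀ ρ ε M : ℝ} (hρ : 0 < ρ) (hρδ : ρ ≤ δ₀) (hε : 0 ≤ ε)
    (hoff : Disjoint (closedBall q' δ₀) (Gi '' (Uᶜ \ Si)))
    (hMR : Gi '' (Uᶜ \ Si) ⊆ closedBall 0 M) (hM : 0 < M)
    (hφ1 : ContDiff ℝ 1 φ) (hφ0 : ∀ x ∈ ball q' ρ, φ x = 0)
    (hφ2 : ∀ x, δ₀ ≤ dist x q' → φ x = 1) (hφe : energy φ ≤ ε)
    (hφF : ∀ F : Finset (Set ℂ), (∀ D ∈ F, D ∈ comps (Gi '' Siᶜ)ᶜ ∧
      D ≠ connectedComponentIn (Gi '' Siᶜ)ᶜ q') → ∑ D ∈ F, osc φ D ^ 2 ≤ ε)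
    {c : ℂ} {r : ℝ} (hr : 0 ≤ r) (hcr : clus (Sk ∪ ⋃₀ T)ᶜ (Sf ∘ Gk) E = closedBall c r)
    (hSfe : IsExt (Gk '' (Sk ∪ ⋃₀ T)ᶜ) Sf) {z : ℂ} (hz : z ∈ U) (hzρ : dist (Gi z) q' < ρ) :
    dist (Sf (Gk z)) c ≤
      r + Real.sqrt (C₀ * (C * R + C * (‖q'‖ + δ₀ + M) + 1) ^ 2 * ε) := by
  classical
  set τ := ⋃₀ T with hτd
  set Uk := (Sk ∪ τ)ᶜ with hUkd
  set R' := C * R + C * (‖q'‖ + δ₀ + M) + 1 with hR'
  have hτK : τ ⊆ Uᶜ := sUnion_subset fun E hE => comps_subset (hTK hE)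
  have hUUk : U ⊆ Uk := subset_compl_comm.1 (union_subset hSk.1 hτK)
  have hUkW : Uk ⊆ Skᶜ := compl_subset_compl.2 subset_union_left
  have hGke : IsExt Uk Gk := isExt_mono hGk hUk hUkW
  have hball : closedBall q' δ₀ ⊆ (Gi '' (Sk \ Si))ᶜ := fun x hx h =>
    Set.disjoint_left.1 hoff hx (image_mono (sdiff_subset_sdiff_left hSk.1) h)
  obtain ⟨ψ, g1, g2, g3, g4⟩ := exists_push hH hball hφ1 hφ2
  set V := Gk '' Uk with hV
  set L := (Gi '' Siᶜ)ᶜ with hL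
  set A := H '' L with hA
  set X := H '' ball q' ρ with hX
  have hbsub : ball q' ρ ⊆ (Gi '' (Sk \ Si))ᶜ :=
    (ball_subset_closedBall.trans (closedBall_subset_closedBall hρδ)).trans hball
  -- points of the disc go into `V` or into the piece
  have hcases : ∀ x ∈ closedBall q' δ₀, x ∈ L ∨ H x ∈ V := by
    intro x hx
    by_cases h : x ∈ L
    · exact Or.inl h
    obtain ⟨y, hy, rfl⟩ := Classical.not_not.1 h
    refine Or.inr ⟨y, ?_, ?_⟩
    · exact hUUk (by_contra fun h' => Set.disjoint_left.1 hoff hx ⟨y, ⟨h', hy⟩, rfl⟩)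
    · exact heq fun h' => hball hx ⟨y, ⟨h', hy⟩, rfl⟩
  have hτW : τ ⊆ Skᶜ := fun x hx => fun h => Set.disjoint_left.1 hdis h hx
  have hVc : IsCompact Vᶜ := (hC Uk Gk hGke).1.compact_compl
  have hVeq : Vᶜ = (Gk '' Skᶜ)ᶜ ∪ Gk '' τ := by
    ext x
    constructor
    · intro hx
      by_cases h : x ∈ Gk '' Skᶜ
      · obtain ⟨y, hy, rfl⟩ := h
        exact Or.inr ⟨y, by_contra fun h' => hx ⟨y, fun h'' => h''.elim hy h', rfl⟩, rfl⟩
      · exact Or.inl h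
    · rintro (h | ⟨y, hy, rfl⟩) ⟨y', hy', e⟩
      · exact h ⟨y', hUkW hy', e⟩
      · rw [hGk.injOn (hUkW hy') (hτW hy) e] at hy'
        exact hy' (Or.inr hy)
  have hτc : IsCompact τ :=
    hTs.finite.isCompact_sUnion fun E hE => comps_compact hU.compact_compl (hTK hE)
  have hpV : Piece Vᶜ A := by
    refine ⟨hpc.1.trans (hVeq ▸ subset_union_left), hpc.2.1, ?_⟩
    have : Vᶜ \ A = ((Gk '' Skᶜ)ᶜ \ A) ∪ Gk '' τ := by
      rw [hVeq, union_sdiff_distrib]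
      refine congrArg _ (Disjoint.sdiff_eq_left (Set.disjoint_left.2 fun x hx hx' => ?_))
      exact hpc.1 hx' (image_mono hτW hx)
    rw [this]
    exact hpc.2.2.union (hτc.image_of_continuousOn (hGk.diff.continuousOn.mono hτW))
  -- the component of the stage
  set Ek := clus Uk Gk E with hEk
  have hEUk : E ∈ comps Ukᶜ := by
    have h1 : E ∈ comps Sk := (piece_comps hSk).2 ⟨hE, hES.trans hik⟩
    have hp : Piece (Sk ∪ τ) Sk := piece_of_union hSk.2.1 hτc hdis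
    rw [hUkd, compl_compl]
    exact ((piece_comps hp).1 h1).1
  have hq'mem : H q' ∈ Ek := by
    refine bclus_subset_clus hGke hEUk ?_
    obtain ⟨q, hq, hqn⟩ := hq'b
    choose zs hzs h1 h2 using fun m : ℕ => hqn (1 / ((m : ℝ) + 1)) (by positivity)
    have hl : Tendsto (fun m : ℕ => 1 / ((m : ℝ) + 1)) atTop (𝓝 0) :=
      tendsto_one_div_add_atTop_nhds_zero_nat
    have hzq : Tendsto zs atTop (𝓝 q) := tendsto_iff_dist_tendsto_zero.2
      (squeeze_zero (fun _ => dist_nonneg) (fun m => (h1 m).le) hl)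
    have hzq' : Tendsto (fun m => Gi (zs m)) atTop (𝓝 q') := tendsto_iff_dist_tendsto_zero.2
      (squeeze_zero (fun _ => dist_nonneg) (fun m => (h2 m).le) hl)
    have hc : Tendsto (fun m => Gk (zs m)) atTop (𝓝 (H q')) := by
      refine ((hH.continuousAt (hbsub (mem_ball_self hρ))).tendsto.comp hzq').congr fun m => ?_
      exact (heq (hUkW (hUUk (hzs m)))).symm
    exact ⟨q, hq, MapClusterPt.of_comp
      (tendsto_nhdsWithin_iff.2 ⟨hzq, Eventually.of_forall fun m => hUUk (hzs m)⟩) hc.mapClusterPt⟩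
  obtain ⟨-, hcomps, hcompg⟩ := conn Uk Gk hGke
  have hEkc : Ek ∈ comps Vᶜ := by rw [hcomps]; exact mem_image_of_mem _ hEUk
  have hcl : clus V Sf Ek = closedBall c r := by rw [← hcompg Sf hSfe E hEUk]; exact hcr
  -- size of the test function
  have hsubR : Vᶜ ⊆ closedBall 0 R' := by
    refine (hCb Uk Gk R (by linarith) hGke ((compl_subset_compl.2 hUUk).trans hKR)).1.trans
      (closedBall_subset_closedBall ?_)
    have : 0 ≤ C * (‖q'‖ + δ₀ + M) :=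
      mul_nonneg (by linarith) (by linarith [norm_nonneg q', hρ.trans_le hρδ])
    linarith
  have hone : ∀ w, R' ≤ ‖w‖ → ψ w = 1 := by
    intro w hw
    refine g3 w ?_
    rintro ⟨x, hx, rfl⟩
    have hMsub : ((Gi '' (Sk \ Si))ᶜ)ᶜ ⊆ closedBall 0 M := by
      rw [compl_compl]
      exact (image_mono (sdiff_subset_sdiff_left hSk.1)).trans hMR
    have h1 := (hCb _ H M hM hH hMsub).2 x (hball hx)
    have h2 : ‖x‖ ≤ ‖q'‖ + δ₀ := by
      have : ‖x - q'‖ ≤ δ₀ := by rw [← dist_eq_norm]; exact hx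
      linarith [norm_le_norm_add_norm_sub q' x, norm_sub_rev q' x]
    have : C * (‖x‖ + M) ≤ C * (‖q'‖ + δ₀ + M) :=
      mul_le_mul_of_nonneg_left (by linarith) (by linarith)
    nlinarith
  have hR'1 : 1 ≤ R' := by
    have : 0 ≤ C * (‖q'‖ + δ₀ + M) :=
      mul_nonneg (by linarith) (by linarith [norm_nonneg q', hρ.trans_le hρδ])
    nlinarith
  have hXo : IsOpen X := by
    have he := isExt_mono hH hH.dom Subset.rfl
    refine isOpen_iff_mem_nhds.2 ?_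
    rintro _ ⟨x, hx, rfl⟩
    obtain ⟨d, hd, hdb⟩ := Metric.isOpen_iff.1 isOpen_ball x hx
    exact mem_of_superset (he.image_ball_mem_nhds (hbsub hx) hd)
      (image_mono (inter_subset_right.trans hdb))
  have hX0 : ∀ w ∈ X, ψ w = 0 := by
    rintro _ ⟨x, hx, rfl⟩
    rw [g2 x (hbsub hx), hφ0 x hx]
  have hosc : ∀ F : Finset (Set ℂ), (∀ D ∈ F, D ∈ comps Vᶜ ∧ D ≠ Ek) →
      ∑ D ∈ F, osc ψ D ^ 2 ≤ ε := by
    intro F hF
    rw [← Finset.sum_filter_add_sum_filter_not F fun D => (D ∩ A).Nonempty]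
    have h0 : ∑ D ∈ F.filter (fun D => ¬ (D ∩ A).Nonempty), osc ψ D ^ 2 = 0 :=
      Finset.sum_eq_zero fun D hD => by
        rw [Finset.mem_filter] at hD
        rw [osc_eq_zero (a := 1) fun w hw => g3 w ?_, zero_pow two_ne_zero]
        rintro ⟨x, hx, rfl⟩
        rcases hcases x hx with h | h
        · exact hD.2 ⟨H x, hw, x, h, rfl⟩
        · exact comps_subset (hF D hD.1).1 hw h
    rw [h0, add_zero]
    have hLsub : L ⊆ (Gi '' (Sk \ Si))ᶜ :=
      compl_subset_compl.2 (image_mono fun x hx => hx.2)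
    have hLc : IsCompact L := (hC _ Gi hGi).1.compact_compl
    have hF' : ∀ D ∈ F.filter (fun D => (D ∩ A).Nonempty), ∃ D₁ ∈ comps L, H '' D₁ = D := by
      intro D hD
      rw [Finset.mem_filter] at hD
      have := comp_in_piece hpV (hF D hD.1).1 hD.2
      rwa [hA, comps_image hH hLc hLsub] at this
    choose! pre hpre hpre' using hF'
    have hi : InjOn pre (F.filter fun D => (D ∩ A).Nonempty) := fun a ha b hb hab => by
      rw [← hpre' a ha, ← hpre' b hb, hab]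
    calc ∑ D ∈ F.filter (fun D => (D ∩ A).Nonempty), osc ψ D ^ 2
        = ∑ D₁ ∈ (F.filter fun D => (D ∩ A).Nonempty).image pre, osc φ D₁ ^ 2 := by
          rw [Finset.sum_image hi]
          refine Finset.sum_congr rfl fun D hD => ?_
          rw [osc, osc]
          congr 2
          conv_lhs => rw [← hpre' D hD, image_image]
          exact image_congr fun x hx => g2 x (hLsub (comps_subset (hpre D hD) hx))
      _ ≤ ε := hφF _ fun D₁ hD₁ => by
          obtain ⟨D, hD, rfl⟩ := Finset.mem_image.1 hD₁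
          refine ⟨hpre D hD, fun e => ?_⟩
          have hDF := hF D (Finset.mem_filter.1 hD).1
          refine hDF.2 ?_
          have : H q' ∈ D := by
            rw [← hpre' D hD, e]
            exact mem_image_of_mem H (mem_connectedComponentIn hq')
          exact (comps_eq hDF.1 this).symm.trans (comps_eq hEkc hq'mem)
  have hzW : z ∈ Skᶜ := hUkW (hUUk hz)
  exact hSf R' ψ X hR'1 hsubR g1 hone hXo
    ((convex_ball q' ρ).isPreconnected.image H (hH.diff.continuousOn.mono hbsub)) hX0 ε hε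
    (g4.trans hφe) Ek hEkc ⟨H q', mem_image_of_mem H (mem_ball_self hρ), hq'mem⟩ hosc c r hr hcl
    (Gk z) ⟨⟨Gi z, mem_ball.2 hzρ, (heq hzW).symm⟩, mem_image_of_mem Gk (hUUk hz)⟩

theorem mainStmt (hA : AreaBoundStmt) (hC : ClusStmt) (hL : LimitStmt) (hN : NormalStmt)
    (hP : PieceStmt) (hLoc : NullLocalStmt) (hSB : StepBoundStmt) : MainStmt := by
  intro U T hU hTK hTs hT
  classical
  obtain ⟨C₀, hC₀, hstep⟩ := hSB
  obtain ⟨C, hC1, hCb⟩ := id hA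
  obtain ⟨R, hR1, hKR⟩ := hU.exists_radius
  obtain ⟨S, hS0, hS, hmono, hdis, hcov, ht⟩ := exists_tame_exhaustion hP hU hTK hTs hT
  obtain ⟨G, hG⟩ := exists_stages hC hP hLoc hU S hS0 hS hmono ht
  set τ := ⋃₀ T with hτd
  have hτc : IsCompact τ :=
    hTs.finite.isCompact_sUnion fun E hE => comps_compact hU.compact_compl (hTK hE)
  have hτK : τ ⊆ Uᶜ := sUnion_subset fun E hE => comps_subset (hTK hE)
  have hτW : ∀ k, τ ⊆ (S k)ᶜ := fun k x hx h => Set.disjoint_left.1 (hdis k) h hx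
  have hUk : ∀ k, Dom (S k ∪ τ)ᶜ ∧ U ⊆ (S k ∪ τ)ᶜ := fun k => by
    refine dom_compl hU ((hS k).2.1.union hτc) (union_subset (hS k).1 hτK) fun E hE hm => ?_
    obtain ⟨x, hxE, hx | ⟨E', hE', hx'⟩⟩ := hm
    · exact (piece_subset (hS k) (comps_preconnected hE) (comps_subset hE) ⟨x, hxE, hx⟩).trans
        subset_union_left
    · rw [(comps_eq hE hxE).symm.trans (comps_eq (hTK hE') hx')]
      exact (subset_sUnion_of_mem hE').trans subset_union_right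
  -- the bad components of a stage
  have hbad : ∀ k, Dom (G k '' (S k ∪ τ)ᶜ) ∧
      (∀ D ∈ comps (G k '' (S k ∪ τ)ᶜ)ᶜ, (D ∩ (G k '' (S k)ᶜ)ᶜ).Nonempty →
        Null (G k '' (S k ∪ τ)ᶜ)ᶜ D) ∧
      {D ∈ comps (G k '' (S k ∪ τ)ᶜ)ᶜ | ¬ Null (G k '' (S k ∪ τ)ᶜ)ᶜ D}.Finite := by
    intro k
    set L := (G k '' (S k)ᶜ)ᶜ
    have hdom := (hC _ _ (isExt_mono (hG k).1 (hUk k).1
      (compl_subset_compl.2 subset_union_left))).1
    have hc := hdom.compact_compl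
    set V := G k '' (S k ∪ τ)ᶜ with hV
    have hVeq : Vᶜ = L ∪ G k '' τ := by
      ext x
      constructor
      · intro hx
        by_cases h : x ∈ G k '' (S k)ᶜ
        · obtain ⟨y, hy, rfl⟩ := h
          exact Or.inr ⟨y, by_contra fun h' => hx ⟨y, fun h'' => h''.elim hy h', rfl⟩, rfl⟩
        · exact Or.inl h
      · rintro (h | ⟨y, hy, rfl⟩) ⟨y', hy', e⟩
        · exact h ⟨y', compl_subset_compl.2 subset_union_left hy', e⟩
        · rw [(hG k).1.injOn (compl_subset_compl.2 subset_union_left hy') (hτW k hy) e] at hy'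
          exact hy' (Or.inr hy)
    have hp : Piece Vᶜ L := by
      rw [hVeq]
      exact piece_of_union (hC _ _ (hG k).1).1.compact_compl
        (hτc.image_of_continuousOn ((hG k).1.diff.continuousOn.mono (hτW k)))
        (Set.disjoint_left.2 fun x hx hx' => hx (image_mono (hτW k) hx'))
    have hnl : ∀ D ∈ comps Vᶜ, (D ∩ L).Nonempty → Null Vᶜ D := fun D hD hm =>
      (hLoc.1 _ _ _ hc hp (comp_in_piece hp hD hm)).1 ((hG k).2.1 D (comp_in_piece hp hD hm))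
    refine ⟨hdom, hnl, Set.Subsingleton.finite ?_⟩
    have hmeet : ∀ D, D ∈ comps Vᶜ ∧ ¬ Null Vᶜ D → (G k '' τ ∩ D).Nonempty := fun D hD => by
      obtain ⟨x, hx⟩ := comps_nonempty hD.1
      rcases (hVeq ▸ comps_subset hD.1 hx : x ∈ L ∪ G k '' τ) with h | h
      · exact absurd (hnl D hD.1 ⟨x, hx, h⟩) hD.2
      · exact ⟨x, h, hx⟩
    have hcon : IsPreconnected (G k '' τ) := by
      refine IsPreconnected.image ?_ _ ((hG k).1.diff.continuousOn.mono (hτW k))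
      rcases hTs.eq_empty_or_singleton with h | ⟨E₀, h⟩
      · simpa [hτd, h] using isPreconnected_empty
      · rw [hτd, h, sUnion_singleton]
        exact comps_preconnected (hTK (by simp [h]))
    intro D hD D' hD'
    obtain ⟨x, hxτ, hxD⟩ := hmeet D hD
    obtain ⟨x', hx'τ, hx'D⟩ := hmeet D' hD'
    have hsub : G k '' τ ⊆ Vᶜ := hVeq ▸ subset_union_right
    exact (comps_eq hD.1 (comps_eq_of_preconnected hD.1 hcon hsub ⟨x, hxτ, hxD⟩ hx'τ)).symm.trans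
      (comps_eq hD'.1 hx'D)
  choose Sf hSfe hSfb hSfd using fun k => hstep _ (hbad k).1 (hbad k).2.2
  have hUkW : ∀ k, (S k ∪ τ)ᶜ ⊆ (S k)ᶜ := fun k => compl_subset_compl.2 subset_union_left
  have hGe : ∀ k, IsExt (S k ∪ τ)ᶜ (G k) := fun k => isExt_mono (hG k).1 (hUk k).1 (hUkW k)
  have hF : ∀ k, IsExt (S k ∪ τ)ᶜ (Sf k ∘ G k) := fun k => (hGe k).comp (hSfe k)
  -- a component inside `S k` becomes a disc of the stage
  have hdisc : ∀ E ∈ comps Uᶜ, ∀ k, E ⊆ S k → E ∈ comps ((S k ∪ τ)ᶜ)ᶜ ∧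
      ∃ (c : ℂ) (r : ℝ), 0 ≤ r ∧ clus (S k ∪ τ)ᶜ (Sf k ∘ G k) E = closedBall c r := by
    intro E hE k hEk
    have hp : Piece (S k ∪ τ) (S k) := piece_of_union (hS k).2.1 hτc (hdis k)
    have h1 : E ∈ comps (S k) := (piece_comps (hS k)).2 ⟨hE, hEk⟩
    have hEc : E ∈ comps ((S k ∪ τ)ᶜ)ᶜ := by
      rw [compl_compl]; exact ((piece_comps hp).1 h1).1
    refine ⟨hEc, ?_⟩
    obtain ⟨-, hcomps, hcompg⟩ := conn _ _ (hGe k)
    rw [hcompg _ (hSfe k) E hEc]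
    have hEkc : clus (S k ∪ τ)ᶜ (G k) E ∈ comps (G k '' (S k ∪ τ)ᶜ)ᶜ :=
      hcomps ▸ mem_image_of_mem _ hEc
    refine hSfd k _ hEkc ((hbad k).2.1 _ hEkc ?_)
    obtain ⟨b, hb⟩ := bclus_nonempty_of_clus ((hC _ _ (hGe k)).2.2 E hEc).1
    refine ⟨b, bclus_subset_clus (hGe k) hEc hb, ?_⟩
    obtain ⟨p, hp', hpc⟩ := hb
    refine notMem_image_of_mem_bclus (hG k).1 (E := E) (by rw [compl_compl]; exact h1)
      ⟨p, hp', hpc.mono (nhdsWithin_mono _ (hUkW k))⟩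
  obtain ⟨s, f, hs, hlim⟩ := hN U (fun k => (S k ∪ τ)ᶜ) (fun k => Sf k ∘ G k) hU
    (fun k => (hUk k).2) hF
  obtain ⟨hf, -⟩ := hL U (fun j => (S (s j) ∪ τ)ᶜ) (fun j => Sf (s j) ∘ G (s j)) f hU
    (fun j => (hUk _).2) (fun j => hF _) hlim
  -- all components but the exceptional one become discs
  have hfdisc : ∀ E ∈ comps Uᶜ, E ∉ T →
      ∃ (c : ℂ) (r : ℝ), 0 ≤ r ∧ clus U f E = closedBall c r := by
    intro E hE hET
    obtain ⟨x, hx⟩ := comps_nonempty hE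
    obtain ⟨i, hxi⟩ := hcov x (comps_subset hE hx) fun ⟨E', hE', hx'⟩ =>
      hET (((comps_eq hE hx).symm.trans (comps_eq (hTK hE') hx')) ▸ hE')
    have hEi : E ⊆ S i :=
      piece_subset (hS i) (comps_preconnected hE) (comps_subset hE) ⟨x, hx, hxi⟩
    obtain ⟨j₀, hj₀⟩ := (hs.tendsto_atTop.eventually_ge_atTop i).exists_forall_of_atTop
    have hsj : ∀ m, i ≤ s (m + j₀) := fun m => hj₀ _ (Nat.le_add_left _ _)
    choose hEc c r hr hcr using fun m => hdisc E hE (s (m + j₀)) (hEi.trans (hmono (hsj m)))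
    obtain ⟨c₀, r₀, σ, hσ, hr₀, hc, hrl, hsub₀⟩ := exists_limit_disc hL hU
      (fun j => (hUk (s j)).2) (fun j => hF (s j)) hlim hE j₀ c r (M := C * R) fun m =>
        ⟨hEc m, hr m, hcr m, fun v hv => (hCb _ _ R (by linarith) (hF _)
          ((compl_subset_compl.2 (hUk _).2).trans hKR)).1 hv.1⟩
    refine ⟨c₀, r₀, hr₀, Subset.antisymm (clus_subset_closedBall hC hf hE hr₀ fun b hb => ?_)
      hsub₀⟩
    -- a boundary value, in the coordinates of stage `i`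
    obtain ⟨q, hq, hqn⟩ := exists_near_bclus hb
    choose zs hzs h1 h2 using fun m : ℕ => hqn (1 / ((m : ℝ) + 1)) (by positivity)
    have hsubW : U ⊆ (S i)ᶜ := subset_compl_comm.1 (hS i).1
    have hRi : ((S i)ᶜ)ᶜ ⊆ closedBall 0 R := by rw [compl_compl]; exact (hS i).1.trans hKR
    have hgrow := (hCb _ _ R (by linarith) (hG i).1 hRi).2
    have hbnd : ∀ m, ‖zs m‖ ≤ ‖q‖ + 1 := fun m => by
      have h := (h1 m).le.trans (div_le_self zero_le_one (by linarith [Nat.cast_nonneg (α := ℝ) m]))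
      rw [dist_eq_norm] at h
      linarith [norm_le_norm_add_norm_sub q (zs m), norm_sub_rev q (zs m)]
    obtain ⟨q', -, φm, hφm, hq'l⟩ :=
      (isCompact_closedBall (0 : ℂ) (C * (‖q‖ + 1 + R))).tendsto_subseq
        (x := fun m => G i (zs m)) fun m => mem_closedBall_zero_iff.2
          ((hgrow _ (hsubW (hzs m))).trans
            (mul_le_mul_of_nonneg_left (by linarith [hbnd m]) (by linarith)))
    have hl : Tendsto (fun m => 1 / ((φm m : ℝ) + 1)) atTop (𝓝 0) :=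
      tendsto_one_div_add_atTop_nhds_zero_nat.comp hφm.tendsto_atTop
    have hzq : Tendsto (fun m => zs (φm m)) atTop (𝓝 q) := tendsto_iff_dist_tendsto_zero.2
      (squeeze_zero (fun _ => dist_nonneg) (fun m => (h1 _).le) hl)
    have hq'L : q' ∈ (G i '' (S i)ᶜ)ᶜ := by
      refine notMem_image_of_mem_bclus (hG i).1 (E := E) ?_
        ⟨q, hq, MapClusterPt.of_comp
          (tendsto_nhdsWithin_iff.2 ⟨hzq, Eventually.of_forall fun m => hsubW (hzs _)⟩)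
          hq'l.mapClusterPt⟩
      rw [compl_compl]
      exact (piece_comps (hS i)).2 ⟨hE, hEi⟩
    have hq'b : ∃ q ∈ E, ∀ ε : ℝ, 0 < ε → ∃ z ∈ U, dist z q < ε ∧ dist (G i z) q' < ε := by
      refine ⟨q, hq, fun ε hε => ?_⟩
      obtain ⟨m, hm1, hm2⟩ := ((hzq.eventually (ball_mem_nhds q hε)).and
        (hq'l.eventually (ball_mem_nhds q' hε))).exists
      exact ⟨_, hzs _, hm1, hm2⟩
    -- the test function there
    have hrest : IsCompact (G i '' (Uᶜ \ S i)) :=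
      (hS i).2.2.image_of_continuousOn ((hG i).1.diff.continuousOn.mono fun x hx => hx.2)
    obtain ⟨d, hd, hdsub⟩ := nhds_basis_closedBall.mem_iff.1
      (hrest.isClosed.isOpen_compl.mem_nhds fun h => hq'L (image_mono (fun x hx => hx.2) h))
    obtain ⟨M₀, hM₀⟩ := hrest.isBounded.subset_closedBall 0
    set M := max M₀ 1 with hMd
    set R' := C * R + C * (‖q'‖ + d + M) + 1 with hR'
    refine le_of_forall_pos_le_add fun δ hδ => ?_
    set ε := δ ^ 2 / (C₀ * R' ^ 2) with hεd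
    have hR'0 : 0 < R' := by positivity
    have hε : 0 < ε := by positivity
    obtain ⟨φ, t1, t2, t3, t4, t5⟩ := (hG i).2.1 _ (mem_comps hq'L) q'
      (mem_connectedComponentIn hq'L) d ε hd hε
    obtain ⟨ρ, hρ, hρφ⟩ := Metric.eventually_nhds_iff_ball.1 t2
    have hsq : Real.sqrt (C₀ * R' ^ 2 * ε) = δ := by
      rw [hεd, show C₀ * R' ^ 2 * (δ ^ 2 / (C₀ * R' ^ 2)) = δ ^ 2 by field_simp,
        Real.sqrt_sq hδ.le]
    have hev : ∀ᶠ m in atTop, dist (f (zs (φm m))) c₀ ≤ r₀ + δ := by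
      filter_upwards [hq'l.eventually (ball_mem_nhds q' (lt_min hρ hd))] with m hm
      refine le_of_tendsto_of_tendsto ((((hlim.tendsto_at (hzs _)).comp
        ((tendsto_add_atTop_nat j₀).comp hσ.tendsto_atTop))).dist hc) (hrl.add_const _)
        (Eventually.of_forall fun l => ?_)
      obtain ⟨H, hH, heq, -, hpc⟩ := (hG (s (σ l + j₀))).2.2 i (hsj (σ l))
      have := stage_bound (C₀ := C₀) (T := T) (Sf := Sf (s (σ l + j₀))) hC hU hR1 hTs hTK
        (hS _) (hmono (hsj _)) (hdis _) (hUk _).1 (hG i).1 (hG _).1 hH heq hpc hCb hC1 hKR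
        (hSfb _) hq'L hE hEi hq'b (δ₀ := d) (ρ := min ρ d) (M := M) (lt_min hρ hd)
        (min_le_right _ _) hε.le
        (Set.disjoint_left.2 fun x hx h => hdsub hx h)
        (hM₀.trans (closedBall_subset_closedBall (le_max_left _ _))) (by positivity) t1
        (fun x hx => hρφ x (ball_subset_ball (min_le_left _ _) hx)) t3 t4 t5 (hr _) (hcr _)
        (hSfe _) (hzs (φm m)) hm
      rwa [hsq] at this
    have hfb : Tendsto (fun m => f (zs (φm m))) atTop (𝓝 b) := tendsto_iff_dist_tendsto_zero.2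
      (squeeze_zero (fun _ => dist_nonneg) (fun m => (h2 _).le) hl)
    exact le_of_tendsto (hfb.dist tendsto_const_nhds) hev
  -- one more step
  obtain ⟨-, hcompf, -⟩ := conn U f hf
  have hV : Dom (f '' U) := (hC U f hf).1
  have hnull : ∀ D ∈ comps (f '' U)ᶜ, Null (f '' U)ᶜ D := by
    intro D hD
    refine goodNull _ _ hV.compact_compl hD ?_
    rw [hcompf] at hD
    obtain ⟨E, hE, rfl⟩ := hD
    rcases em (E ∈ T) with hET | hET
    · refine discGood _ _ univ hV.compact_compl (hcompf ▸ mem_image_of_mem _ hE) isOpen_univ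
        (subset_univ _) fun E' hE' hne _ => ?_
      rw [hcompf] at hE'
      obtain ⟨E₁, hE₁, rfl⟩ := hE'
      obtain ⟨c, r, -, h⟩ := hfdisc E₁ hE₁ fun h1 => hne (by rw [hTs h1 hET])
      exact ⟨c, r, h⟩
    · have hcl : IsClosed (⋃₀ ((fun E => clus U f E) '' T)) :=
        ((hTs.finite.image _).isCompact_sUnion (by
          rintro _ ⟨E₁, hE₁, rfl⟩
          exact ((hC U f hf).2.2 E₁ (hTK hE₁)).2.1)).isClosed
      refine discGood _ _ _ hV.compact_compl (hcompf ▸ mem_image_of_mem _ hE) hcl.isOpen_compl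
        ?_ fun E' hE' hne hm => ?_
      · rintro w hw ⟨_, ⟨E₁, hE₁, rfl⟩, hw'⟩
        exact Set.disjoint_left.1
          (((hC U f hf).2.2 E hE).2.2.2 E₁ (hTK hE₁) fun e => hET (e ▸ hE₁)) hw hw'
      · rw [hcompf] at hE'
        obtain ⟨E₁, hE₁, rfl⟩ := hE'
        obtain ⟨w, hw, hw'⟩ := hm
        obtain ⟨c, r, -, h⟩ := hfdisc E₁ hE₁ fun h1 => hw' ⟨_, mem_image_of_mem _ h1, hw⟩
        exact ⟨c, r, h⟩
  obtain ⟨g, hg, -, hgd⟩ := hstep _ hV
    (Set.finite_empty.subset fun D hD => hD.2 (hnull D hD.1))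
  refine ⟨g ∘ f, hf.comp hg, fun D hD => ?_⟩
  rw [image_comp, (conn _ g hg).2.1] at hD
  obtain ⟨D₀, hD₀, rfl⟩ := hD
  exact hgd D₀ hD₀ (hnull D₀ hD₀)

end Vale.Agent.P116.Pack.Wide
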