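import Vale.Agent.P116.Pack.Wide.Spec
import Vale.Agent.P116.Pack.Image
import Vale.Agent.P116.Pack.Test
import Vale.Agent.P116.Pack.Count
import Vale.Agent.P142.Area

/-!
P116 Pack/Wide: null components. Packed components are null, being null only depends on a piece
and is kept by maps conformal near the set, and null components leave countably many continua.
-/

noncomputable section

namespace Vale.Agent.P116.Pack.Wide

open Set Filter Metric Function MeasureTheory
open scoped Topology BigOperators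

variable {K P Q E W : Set ℂ} {h φ' : ℂ → ℂ}

lemma piece_subset (hP : Piece K P) {T : Set ℂ} (hT : IsPreconnected T) (hTK : T ⊆ K)
    (hm : (T ∩ P).Nonempty) : T ⊆ P := by
  intro x hx
  by_contra hxP
  obtain ⟨y, -, hy1, hy2⟩ := isPreconnected_closed_iff.1 hT P (K \ P) hP.2.1.isClosed hP.2.2.isClosed
    (fun z hz => (em (z ∈ P)).imp id fun h => ⟨hTK hz, h⟩) hm ⟨x, hx, hTK hx, hxP⟩
  exact hy2.2 hy1

lemma piece_comps (hP : Piece K P) : E ∈ comps P ↔ E ∈ comps K ∧ E ⊆ P := by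
  have key : ∀ p ∈ P, connectedComponentIn P p = connectedComponentIn K p := fun p hp =>
    Subset.antisymm (connectedComponentIn_mono _ hP.1)
      (isPreconnected_connectedComponentIn.subset_connectedComponentIn
        (mem_connectedComponentIn (hP.1 hp))
        (piece_subset hP isPreconnected_connectedComponentIn (connectedComponentIn_subset _ _)
          ⟨p, mem_connectedComponentIn (hP.1 hp), hp⟩))
  constructor
  · rintro ⟨p, hp, rfl⟩
    exact ⟨⟨p, hP.1 hp, (key p hp).symm⟩, connectedComponentIn_subset _ _⟩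
  · rintro ⟨hE, hEP⟩
    obtain ⟨p, hp⟩ := comps_nonempty hE
    exact ⟨p, hEP hp, (key p (hEP hp)).trans (comps_eq hE hp)⟩

lemma osc_eq_zero {φ : ℂ → ℝ} {a : ℝ} {T : Set ℂ} (hT : ∀ z ∈ T, φ z = a) : osc φ T = 0 := by
  refine le_antisymm (diam_le_of_forall_dist_le le_rfl ?_) diam_nonneg
  rintro _ ⟨x, hx, rfl⟩ _ ⟨y, hy, rfl⟩
  simp [hT x hx, hT y hy]

/-- The components of a conformal image of a compact set. -/
lemma comps_image (hh : IsExt W h) (hQ : IsCompact Q) (hQW : Q ⊆ W) :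
    comps (h '' Q) = (fun E => h '' E) '' comps Q := by
  have hc : ContinuousOn h Q := hh.diff.continuousOn.mono hQW
  have hi : InjOn h Q := hh.injOn.mono hQW
  have hinv : ContinuousOn (invFunOn h Q) (h '' Q) := by
    rw [continuousOn_iff_isClosed]
    intro t ht
    refine ⟨h '' (t ∩ Q), ((hQ.inter_left ht).image_of_continuousOn
      (hc.mono inter_subset_right)).isClosed, ?_⟩
    ext w
    constructor
    · rintro ⟨hw, x, hx, rfl⟩
      rw [mem_preimage, hi.leftInvOn_invFunOn hx] at hw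
      exact ⟨⟨x, ⟨hw, hx⟩, rfl⟩, x, hx, rfl⟩
    · rintro ⟨⟨x, ⟨hxt, hx⟩, rfl⟩, hw⟩
      exact ⟨by rw [mem_preimage, hi.leftInvOn_invFunOn hx]; exact hxt, hw⟩
  have key : ∀ p ∈ Q, connectedComponentIn (h '' Q) (h p) = h '' connectedComponentIn Q p := by
    intro p hp
    refine Subset.antisymm ?_ ?_
    · intro w hw
      have hsub := connectedComponentIn_subset (h '' Q) (h p)
      obtain ⟨x, hx, rfl⟩ := hsub hw
      refine ⟨x, ?_, rfl⟩
      refine (isPreconnected_connectedComponentIn.image (invFunOn h Q)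
        (hinv.mono hsub)).subset_connectedComponentIn ?_ ?_ ?_
      · exact ⟨h p, mem_connectedComponentIn (mem_image_of_mem h hp), hi.leftInvOn_invFunOn hp⟩
      · rintro _ ⟨v, hv, rfl⟩
        obtain ⟨y, hy, rfl⟩ := hsub hv
        rwa [hi.leftInvOn_invFunOn hy]
      · exact ⟨h x, hw, hi.leftInvOn_invFunOn hx⟩
    · exact (isPreconnected_connectedComponentIn.image h
        (hc.mono (connectedComponentIn_subset _ _))).subset_connectedComponentIn
        (mem_image_of_mem h (mem_connectedComponentIn hp)) (image_mono (connectedComponentIn_subset _ _))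
  ext S
  constructor
  · rintro ⟨_, ⟨p, hp, rfl⟩, rfl⟩
    exact ⟨_, mem_comps hp, (key p hp).symm⟩
  · rintro ⟨_, ⟨p, hp, rfl⟩, rfl⟩
    exact ⟨h p, mem_image_of_mem h hp, key p hp⟩

/-- Composition with a complex multiplication scales the norm. -/
lemma norm_comp_mul (L : ℂ →L[ℝ] ℝ) {u : ℂ} (hu : u ≠ 0) :
    ‖L.comp ((ContinuousLinearMap.toSpanSingleton ℂ u).restrictScalars ℝ)‖ = ‖L‖ * ‖u‖ := by
  set M := fun v : ℂ => (ContinuousLinearMap.toSpanSingleton ℂ v).restrictScalars ℝ with hM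
  have hn : ∀ v : ℂ, ‖M v‖ ≤ ‖v‖ := fun v =>
    ContinuousLinearMap.opNorm_le_bound _ (norm_nonneg _) fun x => by
      simp [hM, mul_comm ‖v‖]
  have hc : (L.comp (M u)).comp (M u⁻¹) = L := by
    refine ContinuousLinearMap.ext fun x => ?_
    simp only [hM, ContinuousLinearMap.comp_apply, ContinuousLinearMap.coe_restrictScalars',
      ContinuousLinearMap.toSpanSingleton_apply, smul_eq_mul, mul_assoc, inv_mul_cancel₀ hu, mul_one]
  refine le_antisymm ((ContinuousLinearMap.opNorm_comp_le _ _).trans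
    (mul_le_mul_of_nonneg_left (hn u) (norm_nonneg _))) ?_
  have h1 : ‖L‖ ≤ ‖L.comp (M u)‖ * ‖u‖⁻¹ := by
    calc ‖L‖ = ‖(L.comp (M u)).comp (M u⁻¹)‖ := by rw [hc]
      _ ≤ ‖L.comp (M u)‖ * ‖M u⁻¹‖ := ContinuousLinearMap.opNorm_comp_le _ _
      _ ≤ ‖L.comp (M u)‖ * ‖u‖⁻¹ := by rw [← norm_inv]; gcongr; exact hn _
  rwa [le_mul_inv_iff₀ (norm_pos_iff.2 hu)] at h1

/-- A test function supported in the domain of a conformal map is pushed forward. -/
lemma exists_push (hh : IsExt W h) {q : ℂ} {d : ℝ} (hd : closedBall q d ⊆ W) {φ : ℂ → ℝ}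
    (hφ : ContDiff ℝ 1 φ) (h1 : ∀ z, d ≤ dist z q → φ z = 1) :
    ∃ ψ : ℂ → ℝ, ContDiff ℝ 1 ψ ∧ (∀ z ∈ W, ψ (h z) = φ z) ∧
      (∀ w, w ∉ h '' closedBall q d → ψ w = 1) ∧ energy ψ ≤ energy φ := by
  classical
  have hWo := hh.dom.isOpen
  set S := closedBall q d with hS
  have hout : ∀ z, z ∉ S → φ z = 1 := fun z hz => h1 z (le_of_lt (by simpa [hS] using hz))
  set ψ : ℂ → ℝ := fun w => if w ∈ h '' W then φ (invFunOn h W w) else 1 with hψ
  have hψh : ∀ z ∈ W, ψ (h z) = φ z := fun z hz => by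
    simp only [hψ, if_pos (mem_image_of_mem h hz), hh.injOn.leftInvOn_invFunOn hz]
  have hψ1 : ∀ w, w ∉ h '' S → ψ w = 1 := by
    intro w hw
    by_cases hwW : w ∈ h '' W
    · obtain ⟨z, hz, rfl⟩ := hwW
      rw [hψh z hz]
      exact hout z fun hzS => hw ⟨z, hzS, rfl⟩
    · simp only [hψ, if_neg hwW]
  have hSc : IsCompact (h '' S) :=
    (isCompact_closedBall q d).image_of_continuousOn (hh.diff.continuousOn.mono hd)
  have hev : ∀ z ∈ W, φ =ᶠ[𝓝 z] ψ ∘ h := fun z hz => by
    filter_upwards [hWo.mem_nhds hz] with x hx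
    exact (hψh x hx).symm
  have hcd : ContDiff ℝ 1 ψ := by
    refine contDiff_iff_contDiffAt.2 fun w => ?_
    by_cases hw : w ∈ h '' S
    · obtain ⟨z, hzS, rfl⟩ := hw
      have hz := hd hzS
      have hne := Vale.Agent.P142.Area.deriv_ne_zero_of_injOn hWo hh.diff hh.injOn hz
      have han := hh.diff.analyticAt (hWo.mem_nhds hz)
      have hmap : h '' W ∈ 𝓝 (h z) := by
        rw [← han.hasStrictDerivAt.map_nhds_eq hne]
        exact image_mem_map (hWo.mem_nhds hz)
      have hinv : AnalyticAt ℂ (invFunOn h W) (h z) := by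
        refine DifferentiableOn.analyticAt (s := interior (h '' W)) (fun x hx => ?_)
          (isOpen_interior.mem_nhds (mem_interior_iff_mem_nhds.2 hmap))
        obtain ⟨y, hy, rfl⟩ := interior_subset hx
        exact ((((hh.diff.analyticAt (hWo.mem_nhds hy)).hasStrictDerivAt).to_local_left_inverse
          (Vale.Agent.P142.Area.deriv_ne_zero_of_injOn hWo hh.diff hh.injOn hy)
          (by filter_upwards [hWo.mem_nhds hy] with v hv
              exact hh.injOn.leftInvOn_invFunOn hv)).hasDerivAt).differentiableAt.differentiableWithinAt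
      refine (hφ.contDiffAt.comp (h z) (hinv.contDiffAt.restrict_scalars ℝ)).congr_of_eventuallyEq ?_
      filter_upwards [hmap] with x hx
      simp only [hψ, if_pos hx]; rfl
    · refine (contDiffAt_const (c := (1 : ℝ))).congr_of_eventuallyEq ?_
      filter_upwards [hSc.isClosed.isOpen_compl.mem_nhds hw] with x hx
      exact hψ1 x hx
  refine ⟨ψ, hcd, hψh, hψ1, le_of_eq ?_⟩
  have hz0 : ∀ w, w ∉ h '' S → ‖fderiv ℝ ψ w‖ ^ 2 = 0 := fun w hw => by
    have : ψ =ᶠ[𝓝 w] fun _ => (1 : ℝ) := by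
      filter_upwards [hSc.isClosed.isOpen_compl.mem_nhds hw] with x hx
      exact hψ1 x hx
    simp [this.fderiv_eq]
  have hz1 : ∀ z, z ∉ S → ‖fderiv ℝ φ z‖ ^ 2 = 0 := fun z hz => by
    have : φ =ᶠ[𝓝 z] fun _ => (1 : ℝ) := by
      filter_upwards [isClosed_closedBall.isOpen_compl.mem_nhds hz] with x hx
      exact hout x hx
    simp [this.fderiv_eq]
  rw [energy, energy, ← setIntegral_eq_integral_of_forall_compl_eq_zero hz0,
    ← setIntegral_eq_integral_of_forall_compl_eq_zero hz1,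
    integral_image_eq_integral_abs_det_fderiv_smul volume measurableSet_closedBall
      (fun z hz => ((((hh.diff.differentiableAt (hWo.mem_nhds (hd hz))).hasDerivAt.hasFDerivAt
        ).restrictScalars ℝ).hasFDerivWithinAt)) (hh.injOn.mono hd)]
  refine setIntegral_congr_fun measurableSet_closedBall fun z hz => ?_
  have hzW := hd hz
  rw [(hev z hzW).fderiv_eq, ((hcd.differentiable one_ne_zero _).hasFDerivAt.comp z
    ((hh.diff.differentiableAt (hWo.mem_nhds hzW)).hasDerivAt.hasFDerivAt.restrictScalars ℝ)).fderiv,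
    norm_comp_mul _ (Vale.Agent.P142.Area.deriv_ne_zero_of_injOn hWo hh.diff hh.injOn hzW)]
  rw [Vale.Agent.P142.Area.abs_det_mul, smul_eq_mul, mul_pow, mul_comm]

theorem goodNull : GoodNullStmt := fun _ _ hK hE hg _ hq _ _ hδ hε =>
  test_local hK hE hg hq hδ hε

theorem nullLocal : NullLocalStmt := by
  refine ⟨fun K P E hK hP hE => ⟨fun hn q hq δ ε hδ hε => ?_, fun hn q hq δ ε hδ hε => ?_⟩, ?_⟩
  · have hqP : q ∈ (K \ P)ᶜ := fun h => h.2 (comps_subset hE hq)
    obtain ⟨d, hd, hdK⟩ := Metric.isOpen_iff.1 hP.2.2.isClosed.isOpen_compl q hqP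
    obtain ⟨φ, h1, h2, h3, h4, h5⟩ := hn q hq (min δ d) ε (lt_min hδ hd) hε
    refine ⟨φ, h1, h2, fun z hz => h3 z ((min_le_left _ _).trans hz), h4, fun F hF => ?_⟩
    classical
    rw [← Finset.sum_filter_add_sum_filter_not F fun E' => E' ⊆ P]
    have h0 : ∑ E' ∈ F.filter (fun E' => ¬ E' ⊆ P), osc φ E' ^ 2 = 0 :=
      Finset.sum_eq_zero fun E' hE' => by
        rw [Finset.mem_filter] at hE'
        have hsub : E' ⊆ K \ P := fun z hz => ⟨comps_subset (hF E' hE'.1).1 hz, fun hzP =>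
          hE'.2 (piece_subset hP (comps_preconnected (hF E' hE'.1).1) (comps_subset (hF E' hE'.1).1)
            ⟨z, hz, hzP⟩)⟩
        rw [osc_eq_zero (a := 1) fun z hz => h3 z ((min_le_right _ _).trans
          (le_of_not_gt fun h => hdK (mem_ball.2 h) (hsub hz))), zero_pow two_ne_zero]
    rw [h0, add_zero]
    refine h5 _ fun E' hE' => ?_
    rw [Finset.mem_filter] at hE'
    exact ⟨(piece_comps hP).2 ⟨(hF E' hE'.1).1, hE'.2⟩, (hF E' hE'.1).2⟩
  · obtain ⟨φ, h1, h2, h3, h4, h5⟩ := hn q hq δ ε hδ hε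
    exact ⟨φ, h1, h2, h3, h4, fun F hF => h5 F fun E' hE' =>
      ⟨((piece_comps hP).1 (hF E' hE').1).1, (hF E' hE').2⟩⟩
  intro W Q E h hh hQ hQW hE hn
  rintro _ ⟨q, hq, rfl⟩ δ ε hδ hε
  classical
  have hqW : q ∈ W := hQW (comps_subset hE hq)
  obtain ⟨d, hd, hdsub⟩ := nhds_basis_closedBall.mem_iff.1
    (inter_mem (hh.dom.isOpen.mem_nhds hqW)
      ((hh.continuousAt hqW).preimage_mem_nhds (ball_mem_nhds (h q) hδ)))
  obtain ⟨φ, h1, h2, h3, h4, h5⟩ := hn q hq d ε hd hε
  obtain ⟨ψ, g1, g2, g3, g4⟩ := exists_push hh (fun z hz => (hdsub hz).1) h1 h3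
  refine ⟨ψ, g1, ?_, fun w hw => g3 w ?_, g4.trans h4, fun F hF => ?_⟩
  · obtain ⟨ρ, hρ, hρφ⟩ := Metric.eventually_nhds_iff_ball.1 h2
    filter_upwards [hh.image_ball_mem_nhds hqW hρ] with w hw
    obtain ⟨z, hz, rfl⟩ := hw
    rw [g2 z hz.1, hρφ z hz.2]
  · rintro ⟨z, hz, rfl⟩
    have : dist (h z) (h q) < δ := (hdsub hz).2
    linarith
  · have hF' : ∀ E' ∈ F, ∃ E₁ ∈ comps Q, h '' E₁ = E' := fun E' hE' => by
      have := (hF E' hE').1
      rwa [comps_image hh hQ hQW] at this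
    choose! pre hpre hpre' using hF'
    have hi : InjOn pre F := fun a ha b hb hab => by rw [← hpre' a ha, ← hpre' b hb, hab]
    calc ∑ E' ∈ F, osc ψ E' ^ 2 = ∑ E₁ ∈ F.image pre, osc φ E₁ ^ 2 := by
          rw [Finset.sum_image hi]
          refine Finset.sum_congr rfl fun E' hE' => ?_
          rw [osc, osc]
          congr 2
          conv_lhs => rw [← hpre' E' hE', image_image]
          exact image_congr fun z hz => g2 z (hQW (comps_subset (hpre E' hE') hz))
      _ ≤ ε := h5 _ fun E₁ hE₁ => by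
          obtain ⟨E', hE', rfl⟩ := Finset.mem_image.1 hE₁
          exact ⟨hpre E' hE', fun e => (hF E' hE').2 (by rw [← hpre' E' hE', e])⟩

theorem nullCount : NullCountStmt := by
  intro K hK hbad
  by_contra hun
  set S : ℕ → Set (Set ℂ) := fun n =>
    {E | E ∈ comps K ∧ Null K E ∧ ((n : ℝ) + 1)⁻¹ ≤ diam E} with hSdef
  have hcover : {E ∈ comps K | E.Nontrivial} ⊆ {E ∈ comps K | ¬ Null K E} ∪ ⋃ n, S n := by
    rintro E ⟨hE, hnt⟩
    by_cases hg : Null K E
    · right
      have hd : 0 < diam E := by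
        obtain ⟨x, hx, y, hy, hxy⟩ := hnt
        exact (dist_pos.2 hxy).trans_le (dist_le_diam_of_mem (comps_compact hK hE).isBounded hx hy)
      obtain ⟨n, hn⟩ := exists_nat_one_div_lt hd
      exact mem_iUnion.2 ⟨n, hE, hg, by simpa [one_div] using hn.le⟩
    · exact .inl ⟨hE, hg⟩
  obtain ⟨n, hn⟩ : ∃ n, ¬ (S n).Countable := by
    by_contra! h
    exact hun ((hbad.countable.union (countable_iUnion h)).mono hcover)
  obtain ⟨E, ⟨hE, hg, -⟩, hcond⟩ := exists_condensed hn
  obtain ⟨p, hp⟩ := comps_nonempty hE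
  set δ : ℝ := ((n : ℝ) + 1)⁻¹ with hδ
  have hδ0 : 0 < δ := by positivity
  obtain ⟨φ, h1, h2, h3, -, h5⟩ := hg p hp (δ / 4) (1 / 2) (by linarith) (by norm_num)
  obtain ⟨r, hr0, hrφ⟩ := Metric.eventually_nhds_iff_ball.1 h2
  obtain ⟨E', ⟨hE'S, x, hxE, hxr⟩, hne⟩ :
      ∃ E', (E' ∈ S n ∧ (E' ∩ ball p r).Nonempty) ∧ E' ≠ E := by
    by_contra! hall
    exact hcond p hp (ball p r) isOpen_ball (mem_ball_self hr0)
      ((countable_singleton E).mono fun F hF => hall F hF)
  obtain ⟨hc, -, hd⟩ := hE'S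
  obtain ⟨y, hy, hyd⟩ : ∃ y ∈ E', δ / 4 ≤ dist y p := by
    by_contra! h
    have : diam E' ≤ δ / 2 := diam_le_of_forall_dist_le (by linarith) fun u hu v hv => by
      linarith [h u hu, h v hv, dist_triangle_right u v p]
    linarith
  have hosc : 1 ≤ osc φ E' := by
    have := dist_le_diam_of_mem ((comps_compact hK hc).image h1.continuous).isBounded
      (mem_image_of_mem φ hy) (mem_image_of_mem φ hxE)
    rwa [h3 y hyd, hrφ x hxr, Real.dist_eq, sub_zero, abs_one] at this
  have := h5 {E'} fun F hF => by rw [Finset.mem_singleton.1 hF]; exact ⟨hc, hne⟩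
  rw [Finset.sum_singleton] at this
  nlinarith

end Vale.Agent.P116.Pack.Wide
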