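import Vale.Agent.P116.Pack.Wide.Conn
import Mathlib.Topology.Separation.Profinite

/-!
P116 Pack, second part: pieces of the complement.
-/

noncomputable section

namespace Vale.Agent.P116.Pack.Wide

open Set Filter Metric Function
open scoped Topology

variable {K P Q : Set ℂ}

lemma Piece.union (hP : Piece K P) (hQ : Piece K Q) : Piece K (P ∪ Q) := by
  refine ⟨union_subset hP.1 hQ.1, hP.2.1.union hQ.2.1, ?_⟩
  rw [show K \ (P ∪ Q) = (K \ P) ∩ (K \ Q) by ext; simp; tauto]
  exact hP.2.2.inter hQ.2.2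

/-- A preconnected subset that meets a piece lies in it. -/
lemma Piece.subset_of_preconnected (hP : Piece K P) {T : Set ℂ} (hT : IsPreconnected T)
    (hTK : T ⊆ K) (hm : (T ∩ P).Nonempty) : T ⊆ P := by
  intro x hx
  by_contra hxP
  obtain ⟨y, -, hy⟩ := isPreconnected_closed_iff.1 hT P (K \ P) hP.2.1.isClosed hP.2.2.isClosed
    (fun z hz => by
      by_cases h : z ∈ P
      · exact Or.inl h
      · exact Or.inr ⟨hTK hz, h⟩) hm ⟨x, hx, hTK hx, hxP⟩
  exact hy.2.2 hy.1

lemma Piece.component_subset (hP : Piece K P) {p : ℂ} (hp : p ∈ P) :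
    connectedComponentIn K p ⊆ P :=
  hP.subset_of_preconnected isPreconnected_connectedComponentIn (connectedComponentIn_subset _ _)
    ⟨p, mem_connectedComponentIn (hP.1 hp), hp⟩

lemma Piece.component_eq (hP : Piece K P) {p : ℂ} (hp : p ∈ P) :
    connectedComponentIn P p = connectedComponentIn K p :=
  Subset.antisymm (connectedComponentIn_mono p hP.1)
    (isPreconnected_connectedComponentIn.subset_connectedComponentIn
      (mem_connectedComponentIn (hP.1 hp)) (hP.component_subset hp))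

lemma Piece.comps_eq_inter (hP : Piece K P) : comps P = {E | E ∈ comps K ∧ E ⊆ P} := by
  refine Subset.antisymm ?_ ?_
  · rintro _ ⟨p, hp, rfl⟩
    show connectedComponentIn P p ∈ _
    rw [hP.component_eq hp]
    exact ⟨mem_comps (hP.1 hp), hP.component_subset hp⟩
  · rintro E ⟨hE, hEP⟩
    obtain ⟨p, hp⟩ := comps_nonempty hE
    exact ⟨p, hEP hp, (hP.component_eq (hEP hp)).trans (comps_eq hE hp)⟩

/-- The complement of a piece is a domain. -/
lemma Piece.dom {U : Set ℂ} (hU : Dom U) (hP : Piece Uᶜ P) : Dom Pᶜ ∧ U ⊆ Pᶜ := by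
  have hUn : U ⊆ Pᶜ := subset_compl_comm.1 hP.1
  refine ⟨⟨hP.2.1.isClosed.isOpen_compl, ?_, by rw [compl_compl]; exact hP.2.1⟩, hUn⟩
  obtain ⟨u, hu⟩ := hU.nonempty
  refine isPreconnected_of_forall u fun y hy => ?_
  by_cases hyU : y ∈ U
  · exact ⟨U, hUn, hu, hyU, hU.isPreconnected⟩
  set E := connectedComponentIn Uᶜ y with hEd
  have hE : E ∈ comps Uᶜ := mem_comps hyU
  have hEn : E ⊆ Pᶜ := fun z hz hzP => hy (hP.component_subset hzP
    (connectedComponentIn_eq hz ▸ mem_connectedComponentIn hyU))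
  obtain ⟨x, hxE, hxU⟩ := Wind.comps_meet_closure hU hE
  refine ⟨U ∪ {x} ∪ E, union_subset (union_subset hUn (singleton_subset_iff.2 (hEn hxE))) hEn,
    Or.inl (Or.inl hu), Or.inr (mem_connectedComponentIn hyU), ?_⟩
  exact IsPreconnected.union x (Or.inr rfl) hxE
    (hU.isPreconnected.subset_closure subset_union_left
      (union_subset subset_closure (singleton_subset_iff.2 hxU))) (comps_preconnected hE)

/-- A component and a closed set off it are separated by a piece. -/
lemma exists_piece (hK : IsCompact K) {E L : Set ℂ} (hE : E ∈ comps K) (hL : IsClosed L)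
    (hLK : L ⊆ K) (hEL : Disjoint E L) : ∃ P, Piece K P ∧ E ⊆ P ∧ Disjoint P L := by
  have : CompactSpace ↥K := isCompact_iff_compactSpace.mp hK
  obtain ⟨p, hp, rfl⟩ := hE
  dsimp only at hEL ⊢
  set π : ↥K → ConnectedComponents ↥K := ConnectedComponents.mk with hπ
  have hπc : Continuous π := ConnectedComponents.continuous_coe
  have hL' : IsClosed (π '' (Subtype.val ⁻¹' L)) :=
    ((hL.preimage continuous_subtype_val).isCompact.image hπc).isClosed
  have hmem : π ⟨p, hp⟩ ∈ (π '' (Subtype.val ⁻¹' L))ᶜ := by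
    rintro ⟨x, hx, hxp⟩
    refine Set.disjoint_left.1 hEL ?_ hx
    rw [connectedComponentIn_eq_image hp]
    exact ⟨x, ConnectedComponents.coe_eq_coe'.1 hxp, rfl⟩
  obtain ⟨V, hV, hpV, hVL⟩ := compact_exists_isClopen_in_isOpen hL'.isOpen_compl hmem
  refine ⟨Subtype.val '' (π ⁻¹' V), ⟨by rintro _ ⟨x, -, rfl⟩; exact x.2,
    ((hV.preimage hπc).isClosed.isCompact.image continuous_subtype_val), ?_⟩, ?_, ?_⟩
  · have : K \ Subtype.val '' (π ⁻¹' V) = Subtype.val '' ((π ⁻¹' V)ᶜ) := by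
      ext z
      constructor
      · exact fun ⟨hz, hn⟩ => ⟨⟨z, hz⟩, fun h => hn ⟨_, h, rfl⟩, rfl⟩
      · rintro ⟨x, hx, rfl⟩
        exact ⟨x.2, fun ⟨y, hy, hxy⟩ => hx (Subtype.val_injective hxy ▸ hy)⟩
    rw [this]
    exact (hV.preimage hπc).compl.isClosed.isCompact.image continuous_subtype_val
  · rw [connectedComponentIn_eq_image hp]
    exact image_mono fun x hx => by
      show π x ∈ V
      rwa [show π x = π ⟨p, hp⟩ from ConnectedComponents.coe_eq_coe'.2 hx]
  · rw [Set.disjoint_left]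
    rintro _ ⟨x, hx, rfl⟩ hxL
    exact hVL hx ⟨x, hxL, rfl⟩

/-- The image of a piece under a map defined off another one. -/
lemma Piece.image {U : Set ℂ} {h : ℂ → ℂ} (hU : Dom U) (hP : Piece Uᶜ P) (hQ : Piece Uᶜ Q)
    (hd : Disjoint Q P) (hh : IsExt Pᶜ h) :
    Dom (h '' Q)ᶜ ∧ comps (h '' Q) = (fun E => h '' E) '' comps Q := by
  have hQP : Q ⊆ Pᶜ := fun z hz => Set.disjoint_left.1 hd hz
  have hcont : ContinuousOn h Q := hh.diff.continuousOn.mono hQP
  have hQc : IsCompact (h '' Q) := hQ.2.1.image_of_continuousOn hcont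
  have hV := (Piece.dom hU (hP.union hQ)).1
  have hhV : IsExt (P ∪ Q)ᶜ h := IsExt.restrict hh hV (compl_subset_compl.2 subset_union_left)
  have hDV := Wind.dom_image hhV
  have hDP := Wind.dom_image hh
  have heq : (h '' (P ∪ Q)ᶜ)ᶜ = (h '' Pᶜ)ᶜ ∪ h '' Q := by
    ext w
    constructor
    · intro hw
      by_cases hwP : w ∈ h '' Pᶜ
      · obtain ⟨z, hz, rfl⟩ := hwP
        by_cases hzQ : z ∈ Q
        · exact Or.inr (mem_image_of_mem h hzQ)
        · exact absurd (mem_image_of_mem h (show z ∈ (P ∪ Q)ᶜ from fun h' => h'.elim hz hzQ)) hw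
      · exact Or.inl hwP
    · rintro (hw | ⟨z, hz, rfl⟩) ⟨y, hy, hyz⟩
      · exact hw ⟨y, fun h' => hy (Or.inl h'), hyz⟩
      · exact hy (Or.inr (hh.injOn (fun h' => hy (Or.inl h')) (hQP hz) hyz ▸ hz))
  have hPQ : Piece (h '' (P ∪ Q)ᶜ)ᶜ (h '' Q) := by
    refine ⟨by rw [heq]; exact subset_union_right, hQc, ?_⟩
    have : (h '' (P ∪ Q)ᶜ)ᶜ \ h '' Q = (h '' Pᶜ)ᶜ := by
      rw [heq, union_diff_right]
      ext w
      exact ⟨fun h' => h'.1, fun h' => ⟨h', fun h'' => h' (image_mono hQP h'')⟩⟩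
    rw [this]
    exact hDP.compact_compl
  refine ⟨(Piece.dom hDV hPQ).1, ?_⟩
  have hgc : ContinuousOn (invFunOn h Pᶜ) (h '' Q) :=
    (isExt_invFunOn hh).diff.continuousOn.mono (image_mono hQP)
  have key : ∀ q ∈ Q, connectedComponentIn (h '' Q) (h q) = h '' connectedComponentIn Q q := by
    intro q hq
    refine Subset.antisymm (fun w hw => ?_) ?_
    · obtain ⟨z, hz, rfl⟩ := connectedComponentIn_subset _ _ hw
      refine ⟨z, ?_, rfl⟩
      have hT := (isPreconnected_connectedComponentIn (F := h '' Q) (x := h q)).image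
        (invFunOn h Pᶜ) (hgc.mono (connectedComponentIn_subset _ _))
      refine hT.subset_connectedComponentIn ?_ ?_ ⟨h z, hw, hh.injOn.leftInvOn_invFunOn (hQP hz)⟩
      · exact ⟨h q, mem_connectedComponentIn (mem_image_of_mem h hq),
          hh.injOn.leftInvOn_invFunOn (hQP hq)⟩
      · rintro _ ⟨w', hw', rfl⟩
        obtain ⟨z', hz', rfl⟩ := connectedComponentIn_subset _ _ hw'
        rwa [hh.injOn.leftInvOn_invFunOn (hQP hz')]
    · exact (isPreconnected_connectedComponentIn.image h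
        (hcont.mono (connectedComponentIn_subset _ _))).subset_connectedComponentIn
        (mem_image_of_mem h (mem_connectedComponentIn hq))
        (image_mono (connectedComponentIn_subset _ _))
  refine Subset.antisymm ?_ ?_
  · rintro _ ⟨_, ⟨q, hq, rfl⟩, rfl⟩
    exact ⟨_, mem_image_of_mem _ hq, (key q hq).symm⟩
  · rintro _ ⟨_, ⟨q, hq, rfl⟩, rfl⟩
    exact ⟨h q, mem_image_of_mem h hq, key q hq⟩

theorem piece : PieceStmt := fun _ hU =>
  ⟨fun _ hP => ⟨(hP.dom hU).1, (hP.dom hU).2, hP.comps_eq_inter⟩,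
    fun _ _ _ hP hQ hd hh => hP.image hU hQ hd hh,
    fun _ hE _ hL hLK hd => exists_piece hU.compact_compl hE hL hLK hd⟩

end Vale.Agent.P116.Pack.Wide
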