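import Vale.Agent.P116.Pack.Spec

/-!
P116 Pack, second part: a countable closed set of bad components is allowed.

A piece of a compact set is a relatively clopen subset. A piece is tame if every conformal image
of every piece inside it is the complement of a domain with a circle map. The members of the bad
set without a tame piece form a closed countable set, so one of them would be isolated; the main
statement (`MainStmt`) makes its neighbourhood tame.

`MainStmt`: the maps of countably many pieces are composed; the discs of earlier pieces stay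
`Null` under the later maps, so a step gives the stage maps, and test functions chosen in the
coordinates of a fixed stage bound the later ones uniformly.
-/

noncomputable section

namespace Vale.Agent.P116.Pack.Wide

open Set Filter Metric Function
open scoped Topology BigOperators

/-- At each point of `E` there are test functions, `0` near the point and `1` off any given disc,
of arbitrarily small energy and oscillation on the other components. -/
def Null (K E : Set ℂ) : Prop :=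
  ∀ q ∈ E, ∀ δ ε : ℝ, 0 < δ → 0 < ε → ∃ φ : ℂ → ℝ, ContDiff ℝ 1 φ ∧
    (∀ᶠ z in 𝓝 q, φ z = 0) ∧ (∀ z, δ ≤ dist z q → φ z = 1) ∧ energy φ ≤ ε ∧
      ∀ F : Finset (Set ℂ), (∀ E' ∈ F, E' ∈ comps K ∧ E' ≠ E) → ∑ E' ∈ F, osc φ E' ^ 2 ≤ ε

/-- A relatively clopen part of a compact set. -/
def Piece (K P : Set ℂ) : Prop := P ⊆ K ∧ IsCompact P ∧ IsCompact (K \ P)

/-- There is a map onto a domain bounded by discs and points. -/
def HasCircle (U : Set ℂ) : Prop :=
  ∃ f : ℂ → ℂ, IsExt U f ∧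
    ∀ E ∈ comps (f '' U)ᶜ, ∃ (c : ℂ) (r : ℝ), 0 ≤ r ∧ E = closedBall c r

/-- All conformal images of the pieces inside `P` have circle maps. -/
def Tame (K P : Set ℂ) : Prop :=
  ∀ (Q P₀ : Set ℂ) (h : ℂ → ℂ), Piece K Q → Piece K P₀ → Q ⊆ P → Disjoint Q P₀ →
    IsExt P₀ᶜ h → HasCircle (h '' Q)ᶜ

/-! ### Topology of pieces and composites -/

/-- Unions of components. -/
def PieceStmt : Prop :=
  ∀ (U : Set ℂ), Dom U →
    (∀ P, Piece Uᶜ P → Dom Pᶜ ∧ U ⊆ Pᶜ ∧ comps P = {E | E ∈ comps Uᶜ ∧ E ⊆ P}) ∧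
    (∀ (P Q : Set ℂ) (h : ℂ → ℂ), Piece Uᶜ P → Piece Uᶜ Q → Disjoint Q P → IsExt Pᶜ h →
      Dom (h '' Q)ᶜ ∧ comps (h '' Q) = (fun E => h '' E) '' comps Q) ∧
    ∀ E ∈ comps Uᶜ, ∀ L : Set ℂ, IsClosed L → L ⊆ Uᶜ → Disjoint E L →
      ∃ P, Piece Uᶜ P ∧ E ⊆ P ∧ Disjoint P L

/-- The parts of the components are connected, and are functorial. -/
def ConnStmt : Prop :=
  ∀ (U : Set ℂ) (f : ℂ → ℂ), IsExt U f →
    (∀ E ∈ comps Uᶜ, IsPreconnected (clus U f E)) ∧
    comps (f '' U)ᶜ = (fun E => clus U f E) '' comps Uᶜ ∧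
    ∀ g : ℂ → ℂ, IsExt (f '' U) g → ∀ E ∈ comps Uᶜ,
      clus U (g ∘ f) E = clus (f '' U) g (clus U f E)

/-! ### Null components -/

/-- Packed components are null. -/
def GoodNullStmt : Prop :=
  ∀ K E : Set ℂ, IsCompact K → E ∈ comps K → Good K E → Null K E

/-- Being null only depends on a piece, and is kept by maps conformal near the set. -/
def NullLocalStmt : Prop :=
  (∀ K P E : Set ℂ, IsCompact K → Piece K P → E ∈ comps P → (Null P E ↔ Null K E)) ∧
    ∀ (W Q E : Set ℂ) (h : ℂ → ℂ), IsExt W h → IsCompact Q → Q ⊆ W → E ∈ comps Q → Null Q E →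
      Null (h '' Q) (h '' E)

/-- There are countably many nondegenerate components next to null ones. -/
def NullCountStmt : Prop :=
  ∀ K : Set ℂ, IsCompact K → {E ∈ comps K | ¬ Null K E}.Finite →
    {E ∈ comps K | E.Nontrivial}.Countable

/-- The bound of `LineStmt` for a map of an arbitrary domain. -/
def LineBound (C : ℝ) (U : Set ℂ) (f : ℂ → ℂ) : Prop :=
  ∀ (R : ℝ) (φ : ℂ → ℝ) (X : Set ℂ), 1 ≤ R → Uᶜ ⊆ closedBall 0 R → ContDiff ℝ 1 φ →
    (∀ z, R ≤ ‖z‖ → φ z = 1) → IsOpen X → IsPreconnected X → (∀ z ∈ X, φ z = 0) →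
    ∀ ε : ℝ, 0 ≤ ε → energy φ ≤ ε → ∀ E ∈ comps Uᶜ, (X ∩ E).Nonempty →
      (∀ F : Finset (Set ℂ), (∀ E' ∈ F, E' ∈ comps Uᶜ ∧ E' ≠ E) →
        ∑ E' ∈ F, osc φ E' ^ 2 ≤ ε) →
      ∀ (c : ℂ) (r : ℝ), 0 ≤ r → clus U f E = closedBall c r →
        ∀ z ∈ X ∩ U, dist (f z) c ≤ r + Real.sqrt (C * R ^ 2 * ε)

/-- One step, with the bound. -/
def StepBoundStmt : Prop :=
  ∃ C : ℝ, 0 < C ∧ ∀ U : Set ℂ, Dom U → {E ∈ comps Uᶜ | ¬ Null Uᶜ E}.Finite →
    ∃ f : ℂ → ℂ, IsExt U f ∧ LineBound C U f ∧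
      ∀ E ∈ comps Uᶜ, Null Uᶜ E → ∃ (c : ℂ) (r : ℝ), 0 ≤ r ∧ clus U f E = closedBall c r

/-- All components but one have tame pieces: there is a circle map. -/
def MainStmt : Prop :=
  ∀ (U : Set ℂ) (T : Set (Set ℂ)), Dom U → T ⊆ comps Uᶜ → T.Subsingleton →
    (∀ E ∈ comps Uᶜ, E ∉ T → ∃ P, Piece Uᶜ P ∧ E ⊆ P ∧ Tame Uᶜ P) → HasCircle U

/-- Countably many bad components with closed union are allowed. -/
def ClosedBadStmt : Prop :=
  ∀ U : Set ℂ, Dom U → ∀ B : Set (Set ℂ), B.Countable → B ⊆ comps Uᶜ → IsClosed (⋃₀ B) →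
    (∀ E ∈ comps Uᶜ, E ∉ B → Null Uᶜ E) → HasCircle U

end Vale.Agent.P116.Pack.Wide
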