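import Vale.Agent.P116.Pack.Wide.Spec
import Vale.Agent.P116.Pack.Sphere
import Vale.Agent.P116.Pack.SphereMove

/-!
P116 Pack, second part: the result on the sphere.
-/

noncomputable section

namespace Vale.Agent.P116.Pack.Wide

open Set Filter Metric Function
open scoped Topology OnePoint

/-- Off a countable family of components with closed union, all components of `K` are packed or
null. -/
def MildBad (K : Set ℂ) : Prop :=
  ∃ B : Set (Set ℂ), B.Countable ∧ B ⊆ comps K ∧ IsClosed (⋃₀ B) ∧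
    ∀ E ∈ comps K, E ∉ B → Good K E ∨ Null K E

lemma hasCircle_of_mildBad (h : ClosedBadStmt) (hG : GoodNullStmt) {U : Set ℂ} (hU : Dom U)
    (hB : MildBad Uᶜ) : HasCircle U := by
  obtain ⟨B, hBc, hBK, hBcl, hrest⟩ := hB
  exact h U hU B hBc hBK hBcl fun E hE hEB =>
    (hrest E hE hEB).elim (hG _ E hU.compact_compl hE) id

/-- A domain through infinity. -/
theorem wideSphere (h : ClosedBadStmt) (hG : GoodNullStmt) (G : Set (OnePoint ℂ)) (hGo : IsOpen G)
    (hGc : IsConnected G) (hinf : (∞ : OnePoint ℂ) ∈ G)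
    (hgood : MildBad ((fun z : ℂ => (z : OnePoint ℂ)) ⁻¹' G)ᶜ) :
    ∃ Ω, IsCircleDomain Ω ∧ ConformallyEquiv G Ω := by
  obtain ⟨f, hf, hE⟩ := hasCircle_of_mildBad h hG (dom_finPart hGo hGc hinf) hgood
  exact sphere_of_map hGo hGc hinf hf hE

/-- A domain through a finite point, read after `x ↦ 1 / (x - a)`. -/
theorem wideSphere_move (h : ClosedBadStmt) (hG : GoodNullStmt) (G : Set (OnePoint ℂ))
    (hGo : IsOpen G) (hGc : IsConnected G) (a : ℂ) (ha : (a : OnePoint ℂ) ∈ G)
    (hgood : MildBad ((fun z : ℂ => (z : OnePoint ℂ)) ⁻¹' (invAt a '' G))ᶜ) :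
    ∃ Ω, IsCircleDomain Ω ∧ ConformallyEquiv G Ω := by
  have hhol : ∀ x, HolAt (invAt a) x := fun x =>
    holAt_comp (holAt_sphShift a x) (holAt_sphInv _)
  have hinj : Function.Injective (invAt a) :=
    (Function.LeftInverse.injective sphInv_sphInv).comp (sphShift a).injective
  have hinf : (∞ : OnePoint ℂ) ∈ invAt a '' G := by
    refine ⟨(a : OnePoint ℂ), ha, ?_⟩
    show sphInv ((a - a : ℂ) : OnePoint ℂ) = ∞
    rw [sub_self, sphInv_zero]
  obtain ⟨Ω, hΩ, F, hF, hFh⟩ := wideSphere h hG (invAt a '' G)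
    (isOpen_image_of_holAt hGo (fun x _ => hhol x) hinj.injOn)
    (hGc.image _ fun x _ => (hhol x).1.continuousWithinAt) hinf hgood
  exact ⟨Ω, hΩ, F ∘ invAt a, hF.comp hinj.injOn.bijOn_image,
    fun x hx => holAt_comp (hhol x) (hFh _ (mem_image_of_mem _ hx))⟩

end Vale.Agent.P116.Pack.Wide
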