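import Vale.Agent.P116.Pack.Wide.Null
import Vale.Agent.P116.Pack.Wide.Piece
import Vale.Agent.P116.Pack.DiscGood

/-!
P116 Pack/Wide: composing the maps of pieces. The components of every stage are null, and an
earlier stage is carried to a piece of a later one by a map conformal near it.
-/

noncomputable section

namespace Vale.Agent.P116.Pack.Wide

open Set Filter Metric Function
open scoped Topology

variable {K U W V L P P' Q : Set ℂ} {f g h G : ℂ → ℂ}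

lemma isExt_mono (hf : IsExt W f) (hV : Dom V) (hVW : V ⊆ W) : IsExt V f :=
  ⟨hV, hf.diff.mono hVW, hf.injOn.mono hVW, hf.norm_inf⟩

lemma isExt_comp (hC : ClusStmt) (hf : IsExt W f) (hg : IsExt P g) (hV : Dom V) (hVW : V ⊆ W)
    (hm : f '' V ⊆ P) : IsExt V (g ∘ f) :=
  (isExt_mono hf hV hVW).comp (isExt_mono hg (hC V f (isExt_mono hf hV hVW)).1 hm)

lemma isExt_id : IsExt univ id :=
  ⟨⟨isOpen_univ, isPreconnected_univ, by simp⟩, differentiableOn_id, injOn_id _, by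
    simp⟩

lemma Piece.empty (hK : IsCompact K) : Piece K ∅ :=
  ⟨empty_subset _, isCompact_empty, by simpa using hK⟩

lemma Piece.diff (hP : Piece K P) (hP' : Piece K P') : Piece K (P \ P') :=
  ⟨sdiff_subset.trans hP.1, by
    rw [show P \ P' = P ∩ (K \ P') by
      ext x
      exact ⟨fun h => ⟨h.1, hP.1 h.1, h.2⟩, fun h => ⟨h.1, h.2.2⟩⟩]
    exact hP.2.1.inter_right hP'.2.2.isClosed, by
    rw [show K \ (P \ P') = (K \ P) ∪ P' by
      ext x
      constructor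
      · intro h
        by_cases hx : x ∈ P
        · exact Or.inr (by_contra fun h' => h.2 ⟨hx, h'⟩)
        · exact Or.inl ⟨h.1, hx⟩
      · rintro (h | h)
        · exact ⟨h.1, fun h' => h.2 h'.1⟩
        · exact ⟨hP'.1 h, fun h' => h'.2 h⟩]
    exact hP.2.2.union hP'.2.1⟩

/-- A piece from two compact disjoint parts. -/
lemma piece_of_union (hP : IsCompact P) (hQ : IsCompact Q) (hd : Disjoint P Q) : Piece (P ∪ Q) P :=
  ⟨subset_union_left, hP, by rwa [union_sdiff_left, hd.sdiff_eq_right]⟩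

lemma comp_in_piece {D : Set ℂ} (hP : Piece K P) (hD : D ∈ comps K) (hm : (D ∩ P).Nonempty) :
    D ∈ comps P :=
  (piece_comps hP).2 ⟨hD, piece_subset hP (comps_preconnected hD) (comps_subset hD) hm⟩

/-- The complement of a compact union of components is a domain. -/
lemma dom_compl (hU : Dom U) (hL : IsCompact L) (hLK : L ⊆ Uᶜ)
    (hsat : ∀ E ∈ comps Uᶜ, (E ∩ L).Nonempty → E ⊆ L) : Dom Lᶜ ∧ U ⊆ Lᶜ := by
  have hUn : U ⊆ Lᶜ := subset_compl_comm.1 hLK
  refine ⟨⟨hL.isClosed.isOpen_compl, ?_, by rwa [compl_compl]⟩, hUn⟩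
  obtain ⟨u, hu⟩ := hU.nonempty
  refine isPreconnected_of_forall u fun y hy => ?_
  by_cases hyU : y ∈ U
  · exact ⟨U, hUn, hu, hyU, hU.isPreconnected⟩
  set E := connectedComponentIn Uᶜ y with hEd
  have hE : E ∈ comps Uᶜ := mem_comps hyU
  have hyE : y ∈ E := mem_connectedComponentIn hyU
  have hEn : E ⊆ Lᶜ := fun z hz hzL => hy (hsat E hE ⟨z, hz, hzL⟩ hyE)
  obtain ⟨x, hxE, hxU⟩ : (E ∩ closure U).Nonempty := by
    by_contra hne
    have hEi : E ⊆ (closure U)ᶜ := fun z hz hzc => hne ⟨z, hz, hzc⟩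
    set O := connectedComponentIn (closure U)ᶜ y with hO
    have hyc : y ∈ (closure U)ᶜ := hEi hyE
    have hOo : IsOpen O := isClosed_closure.isOpen_compl.connectedComponentIn
    have hOU : closure O ⊆ Uᶜ := closure_minimal
      ((connectedComponentIn_subset _ _).trans (compl_subset_compl.2 subset_closure))
      hU.isOpen.isClosed_compl
    have hOE : closure O ⊆ E := isPreconnected_connectedComponentIn.closure.subset_connectedComponentIn
      (subset_closure (mem_connectedComponentIn hyc)) hOU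
    have hcl : IsClosed O := isClosed_of_closure_subset
      (isPreconnected_connectedComponentIn.closure.subset_connectedComponentIn
        (subset_closure (mem_connectedComponentIn hyc)) (hOE.trans hEi))
    rcases isClopen_iff.1 ⟨hcl, hOo⟩ with h | h
    · have := mem_connectedComponentIn hyc
      rw [← hO, h] at this
      exact this
    · obtain ⟨v, hv⟩ := hU.nonempty
      exact hOU (subset_closure (h ▸ mem_univ v)) hv
  refine ⟨U ∪ {x} ∪ E, union_subset (union_subset hUn (singleton_subset_iff.2 (hEn hxE))) hEn,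
    Or.inl (Or.inl hu), Or.inr hyE, ?_⟩
  exact IsPreconnected.union x (Or.inr rfl) hxE
    (hU.isPreconnected.subset_closure subset_union_left
      (union_subset subset_closure (singleton_subset_iff.2 hxU))) (comps_preconnected hE)

/-- One more piece: the earlier components stay null and form a piece. -/
lemma stage_succ (hC : ClusStmt) (hLoc : NullLocalStmt) (hG : IsExt W G) (hV : Dom V)
    (hVW : V = W \ Q) (hQW : Q ⊆ W)
    (hnull : ∀ D ∈ comps (G '' W)ᶜ, Null (G '' W)ᶜ D) (hg : IsExt (G '' Q)ᶜ g)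
    (hgc : ∀ E ∈ comps (g '' (G '' Q)ᶜ)ᶜ, ∃ (c : ℂ) (r : ℝ), 0 ≤ r ∧ E = closedBall c r) :
    IsExt V (g ∘ G) ∧ (∀ D ∈ comps ((g ∘ G) '' V)ᶜ, Null ((g ∘ G) '' V)ᶜ D) ∧
      (G '' W)ᶜ ⊆ (G '' Q)ᶜ ∧ g '' (G '' W)ᶜ ⊆ ((g ∘ G) '' V)ᶜ ∧
      ∀ A, Piece (G '' W)ᶜ A → Piece ((g ∘ G) '' V)ᶜ (g '' A) := by
  set L := (G '' W)ᶜ with hLd
  set D := (G '' Q)ᶜ with hDd
  have hVW' : V ⊆ W := hVW ▸ sdiff_subset
  have hGV : G '' V ⊆ D := by
    rintro _ ⟨x, hx, rfl⟩ ⟨y, hy, hyx⟩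
    rw [hVW] at hx
    exact hx.2 (hG.injOn (hQW hy) hx.1 hyx ▸ hy)
  have hLD : L ⊆ D := compl_subset_compl.2 (image_mono hQW)
  have hext : IsExt V (g ∘ G) := isExt_comp hC hG hg hV hVW' hGV
  have hDeq : D = G '' V ∪ L := by
    refine Subset.antisymm (fun x hx => ?_) (union_subset hGV hLD)
    by_cases h : x ∈ G '' W
    · obtain ⟨y, hy, rfl⟩ := h
      exact Or.inl ⟨y, hVW ▸ ⟨hy, fun hq => hx ⟨y, hq, rfl⟩⟩, rfl⟩
    · exact Or.inr h
  have hLc : IsCompact L := (hC W G hG).1.compact_compl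
  have hcA : ∀ {A}, IsCompact A → A ⊆ L → IsCompact (g '' A) := fun hA hAL =>
    hA.image_of_continuousOn (hg.diff.continuousOn.mono (hAL.trans hLD))
  have hM : IsCompact (g '' D)ᶜ := (hC D g hg).1.compact_compl
  have hdisj : Disjoint (g '' L) (g '' (G '' V)) :=
    Disjoint.image (Set.disjoint_left.2 fun x hx hx' => hx (image_mono hVW' hx')) hg.injOn hLD hGV
  have hL' : ((g ∘ G) '' V)ᶜ = g '' L ∪ (g '' D)ᶜ := by
    rw [image_comp, hDeq, image_union]
    ext x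
    constructor
    · intro hx
      by_cases h : x ∈ g '' L
      · exact Or.inl h
      · exact Or.inr fun h' => h'.elim hx h
    · rintro (h | h) hx
      · exact Set.disjoint_left.1 hdisj h hx
      · exact h (Or.inl hx)
  have hd : Disjoint (g '' L) (g '' D)ᶜ := disjoint_compl_right.mono_left (image_mono hLD)
  have hp1 : Piece ((g ∘ G) '' V)ᶜ (g '' L) := by
    rw [hL']; exact piece_of_union (hcA hLc Subset.rfl) hM hd
  have hp2 : Piece ((g ∘ G) '' V)ᶜ (g '' D)ᶜ := by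
    rw [hL', union_comm]; exact piece_of_union hM (hcA hLc Subset.rfl) hd.symm
  have hc : IsCompact ((g ∘ G) '' V)ᶜ := (hC V _ hext).1.compact_compl
  refine ⟨hext, fun Dk hDk => ?_, hLD, hp1.1, fun A hA => ?_⟩
  · obtain ⟨x, hx⟩ := comps_nonempty hDk
    rcases (hL' ▸ comps_subset hDk hx : x ∈ g '' L ∪ (g '' D)ᶜ) with h | h
    · have hcp := comp_in_piece hp1 hDk ⟨x, hx, h⟩
      refine (hLoc.1 _ _ _ hc hp1 hcp).1 ?_
      rw [comps_image hg hLc hLD] at hcp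
      obtain ⟨D₀, hD₀, rfl⟩ := hcp
      exact hLoc.2 D L D₀ g hg hLc hLD hD₀ (hnull D₀ hD₀)
    · have hcp := comp_in_piece hp2 hDk ⟨x, hx, h⟩
      refine (hLoc.1 _ _ _ hc hp2 hcp).1 (goodNull _ _ hM hcp ?_)
      exact discGood _ _ univ hM hcp isOpen_univ (subset_univ _) fun E' hE' _ _ =>
        let ⟨c, r, _, h⟩ := hgc E' hE'; ⟨c, r, h⟩
  · refine ⟨(image_mono hA.1).trans hp1.1, hcA hA.2.1 hA.1, ?_⟩
    have : ((g ∘ G) '' V)ᶜ \ g '' A = g '' (L \ A) ∪ (g '' D)ᶜ := by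
      rw [hL', union_sdiff_distrib, ← (hg.injOn.mono hLD).image_sdiff_subset hA.1,
        (hd.symm.mono_right (image_mono hA.1)).sdiff_eq_left]
    rw [this]
    exact (hcA hA.2.2 sdiff_subset).union hM

/-- Stage maps of an increasing sequence of pieces whose steps have circle maps. -/
lemma exists_stages (hC : ClusStmt) (hP : PieceStmt) (hLoc : NullLocalStmt) (hU : Dom U)
    (S : ℕ → Set ℂ) (h0 : S 0 = ∅) (hS : ∀ k, Piece Uᶜ (S k)) (hmono : Monotone S)
    (ht : ∀ (k : ℕ) (G : ℂ → ℂ), IsExt (S k)ᶜ G → HasCircle (G '' (S (k + 1) \ S k))ᶜ) :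
    ∃ G : ℕ → ℂ → ℂ, ∀ k, IsExt (S k)ᶜ (G k) ∧
      (∀ D ∈ comps (G k '' (S k)ᶜ)ᶜ, Null (G k '' (S k)ᶜ)ᶜ D) ∧
      ∀ i ≤ k, ∃ H : ℂ → ℂ, IsExt (G i '' (S k \ S i))ᶜ H ∧ EqOn (G k) (H ∘ G i) (S k)ᶜ ∧
        (G i '' (S i)ᶜ)ᶜ ⊆ (G i '' (S k \ S i))ᶜ ∧
        Piece (G k '' (S k)ᶜ)ᶜ (H '' (G i '' (S i)ᶜ)ᶜ) := by
  classical
  have hdom : ∀ k, Dom (S k)ᶜ := fun k => ((hP U hU).1 _ (hS k)).1
  set Inv : ℕ → (ℂ → ℂ) → Prop := fun k G =>
    IsExt (S k)ᶜ G ∧ ∀ D ∈ comps (G '' (S k)ᶜ)ᶜ, Null (G '' (S k)ᶜ)ᶜ D with hInv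
  have hset : ∀ k, (S (k + 1))ᶜ = (S k)ᶜ \ (S (k + 1) \ S k) := fun k => by
    ext x
    exact ⟨fun h => ⟨fun h' => h (hmono k.le_succ h'), fun h' => h h'.1⟩,
      fun h h' => h.2 ⟨h', h.1⟩⟩
  have hstep : ∀ k G, Inv k G → ∃ g, IsExt (G '' (S (k + 1) \ S k))ᶜ g ∧ Inv (k + 1) (g ∘ G) ∧
      (G '' (S k)ᶜ)ᶜ ⊆ (G '' (S (k + 1) \ S k))ᶜ ∧
      ∀ A, Piece (G '' (S k)ᶜ)ᶜ A → Piece ((g ∘ G) '' (S (k + 1))ᶜ)ᶜ (g '' A) := by
    intro k G hG
    obtain ⟨g, hg, hgc⟩ := ht k G hG.1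
    obtain ⟨h1, h2, h3, -, h4⟩ := stage_succ hC hLoc hG.1 (hdom (k + 1)) (hset k)
      (fun x hx => hx.2) hG.2 hg hgc
    exact ⟨g, hg, ⟨h1, h2⟩, h3, h4⟩
  choose! nx hnx1 hnx2 hnx3 hnx4 using hstep
  let G : ℕ → ℂ → ℂ := fun k => Nat.rec id (fun k G => nx k G ∘ G) k
  have hG0 : G 0 = id := rfl
  have hGs : ∀ k, G (k + 1) = nx k (G k) ∘ G k := fun k => rfl
  have hinv : ∀ k, Inv k (G k) := by
    intro k
    induction k with
    | zero =>
      refine ⟨by simpa [hG0, h0] using isExt_id, fun D hD => ?_⟩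
      simp [comps, hG0, h0] at hD
    | succ k ih => rw [hGs]; exact hnx2 k _ ih
  refine ⟨G, fun k => ⟨(hinv k).1, (hinv k).2, fun i hik => ?_⟩⟩
  induction k, hik using Nat.le_induction with
  | base =>
    refine ⟨id, ?_, fun x _ => rfl, by simp, ?_⟩
    · simpa using isExt_id
    · rw [image_id]
      exact ⟨Subset.rfl, (hC _ _ (hinv i).1).1.compact_compl, by simp⟩
  | succ k hik ih =>
    obtain ⟨H, hH, heq, hsub, hpc⟩ := ih
    set g := nx k (G k) with hgd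
    have hQi : S (k + 1) \ S i ⊆ (S i)ᶜ := fun x hx => hx.2
    set D' := (G i '' (S (k + 1) \ S i))ᶜ with hD'
    have hD'dom : Dom D' := ((hP U hU).2.1 (S i) (S (k + 1) \ S i) (G i) (hS i)
      ((hS _).diff (hS i)) (Set.disjoint_left.2 fun x hx => hx.2) (hinv i).1).1
    have hD'D : D' ⊆ (G i '' (S k \ S i))ᶜ :=
      compl_subset_compl.2 (image_mono (sdiff_subset_sdiff_left (hmono k.le_succ)))
    have hm : H '' D' ⊆ (G k '' (S (k + 1) \ S k))ᶜ := by
      rintro _ ⟨x, hx, rfl⟩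
      by_cases h : x ∈ G i '' (S i)ᶜ
      · obtain ⟨y, hy, rfl⟩ := h
        have hy1 : y ∉ S (k + 1) := fun h' => hx ⟨y, ⟨h', hy⟩, rfl⟩
        have hy0 : y ∈ (S k)ᶜ := fun h' => hy1 (hmono k.le_succ h')
        rw [show H (G i y) = G k y from (heq hy0).symm]
        rintro ⟨v, hv, hve⟩
        exact hy1 ((hinv k).1.injOn hv.2 hy0 hve ▸ hv.1)
      · exact hnx3 k _ (hinv k) (hpc.1 ⟨x, h, rfl⟩)
    refine ⟨g ∘ H, isExt_comp hC hH (hnx1 k _ (hinv k)) hD'dom hD'D hm, fun x hx => ?_,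
      compl_subset_compl.2 (image_mono hQi), ?_⟩
    · show g (G k x) = g (H (G i x))
      exact congrArg g (heq fun h => hx (hmono k.le_succ h))
    · have h4 := hnx4 k _ (hinv k) _ hpc
      rw [← hGs, ← image_comp] at h4
      exact h4

end Vale.Agent.P116.Pack.Wide
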